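import Vale.Agent.P166F.Haar.Poincare

/-!
Concentration of logarithms of finite sums of exponentials on the orthogonal group.
-/

namespace Vale.Agent.P166F.Orth

open MeasureTheory Matrix

variable {N : ℕ} {ν : Measure (Arr2 N)} {X : Type} [Fintype X] [Nonempty X]

/-- The logarithm of a finite sum of exponentials. -/
noncomputable def lse (h : X → Arr2 N → ℝ) (U : Arr2 N) : ℝ := Real.log (∑ x, Real.exp (h x U))

lemma sum_exp_pos (h : X → Arr2 N → ℝ) (U : Arr2 N) : 0 < ∑ x, Real.exp (h x U) :=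
  Finset.sum_pos (fun _ _ => Real.exp_pos _) Finset.univ_nonempty

lemma contDiff_lse {h : X → Arr2 N → ℝ} (hh : ∀ x, ContDiff ℝ 1 (h x)) : ContDiff ℝ 1 (lse h) :=
  (ContDiff.sum fun x _ => (hh x).exp).log fun U => (sum_exp_pos h U).ne'

/-- Squares of derivatives of log-sums are at most averages of squares. -/
lemma dl_lse_sq_le {h : X → Arr2 N → ℝ} (hh : ∀ x, ContDiff ℝ 1 (h x)) (a b : Fin N) (U : Arr2 N) :
    dl (lse h) a b U ^ 2 ≤
      (∑ x, Real.exp (h x U) * dl (h x) a b U ^ 2) / ∑ x, Real.exp (h x U) := by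
  have hd := (HasFDerivAt.fun_sum (u := (Finset.univ : Finset X)) fun x _ =>
    ((hh x).differentiable one_ne_zero U).hasFDerivAt.exp).log (sum_exp_pos h U).ne'
  have e : dl (lse h) a b U =
      (∑ x, Real.exp (h x U) * dl (h x) a b U) / ∑ x, Real.exp (h x U) := by
    show fderiv ℝ (fun U => Real.log (∑ x, Real.exp (h x U))) U _ = _
    rw [hd.fderiv, div_eq_inv_mul]
    simp only [_root_.smul_apply, _root_.sum_apply, smul_eq_mul, dl]
  have hw := sum_exp_pos h U
  rw [e, div_pow, sq (∑ x, Real.exp (h x U)), ← div_div]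
  refine div_le_div_of_nonneg_right ((div_le_iff₀ hw).2 ?_) hw.le
  refine Finset.sum_sq_le_sum_mul_sum_of_sq_le_mul _ (fun x _ => by positivity)
    (fun x _ => (Real.exp_pos _).le) fun x _ => le_of_eq ?_
  ring

/-- Variance of a log-sum from a bound on the derivatives of its summands. -/
theorem variance_lse_le (hν : StabLaw ∅ ν) {h : X → Arr2 N → ℝ} (hh : ∀ x, ContDiff ℝ 1 (h x))
    {B : ℝ} (hB : ∀ U, Fix ∅ U → ∀ x, ∑ a, ∑ b, dl (h x) a b U ^ 2 ≤ B) :
    ∫ U, (lse h U - ∫ V, lse h V ∂ν) ^ 2 ∂ν ≤ Real.pi ^ 2 / (2 * (N : ℝ)) * B +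
      1 / (2 * (N : ℝ)) * ∑ e, ∫ U, (lse h U - lse h (mm (flip1 e) U)) ^ 2 ∂ν := by
  have := hν.prob
  have hf := contDiff_lse hh
  refine (variance_le hν hf).trans (add_le_add ?_ le_rfl)
  refine mul_le_mul_of_nonneg_left ?_ (by positivity)
  have hi : ∀ a b, Integrable (fun U => dl (lse h) a b U ^ 2) ν := fun a b =>
    hν.integrable ((continuous_dl hf a b).pow 2)
  rw [← Finset.sum_congr rfl fun a (_ : a ∈ Finset.univ) => integral_finsetSum Finset.univ fun b _ => hi a b,
    ← integral_finsetSum Finset.univ fun a _ => integrable_finsetSum _ fun b _ => hi a b]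
  refine (integral_mono_ae (integrable_finsetSum _ fun a _ => integrable_finsetSum _ fun b _ => hi a b)
    (integrable_const B) (hν.fix.mono fun U hU => ?_)).trans_eq (by simp)
  have hw := sum_exp_pos h U
  calc ∑ a, ∑ b, dl (lse h) a b U ^ 2
      ≤ ∑ a, ∑ b, (∑ x, Real.exp (h x U) * dl (h x) a b U ^ 2) / ∑ x, Real.exp (h x U) :=
        Finset.sum_le_sum fun a _ => Finset.sum_le_sum fun b _ => dl_lse_sq_le hh a b U
    _ = (∑ x, Real.exp (h x U) * ∑ a, ∑ b, dl (h x) a b U ^ 2) / ∑ x, Real.exp (h x U) := by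
        simp only [← Finset.sum_div, Finset.mul_sum]
        congr 1
        rw [Finset.sum_comm (γ := X)]
        exact Finset.sum_congr rfl fun a _ => Finset.sum_comm
    _ ≤ B := by
        rw [div_le_iff₀ hw, Finset.mul_sum]
        refine Finset.sum_le_sum fun x _ => ?_
        rw [mul_comm B]
        exact mul_le_mul_of_nonneg_left (hB U hU x) (Real.exp_pos _).le

/-- Mean absolute deviation from a bound on the variance. -/
lemma mad_le_sqrt {α : Type} [MeasurableSpace α] {μ : Measure α} [IsProbabilityMeasure μ]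
    {g : α → ℝ} (h1 : Integrable g μ) (h2 : Integrable (fun a => g a ^ 2) μ) {C : ℝ}
    (hC : ∫ a, g a ^ 2 ∂μ ≤ C) : ∫ a, |g a| ∂μ ≤ Real.sqrt C := by
  refine Real.le_sqrt_of_sq_le (le_trans ?_ hC)
  simpa [sq_abs] using sq_integral_le (g := fun a => |g a|) h1.abs (by simpa [sq_abs] using h2)

/-- The coordinate `c` of the rotated configuration. -/
noncomputable def proj (s : Fin N → ℝ) (c : Fin N) (U : Arr2 N) : ℝ := ∑ j, U c j * s j

lemma proj_pk (s : Fin N → ℝ) (a b c : Fin N) (U : Arr2 N) :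
    proj s c (mm (of.symm (pk a (Pi.single b 1))) U) =
      (if c = b then proj s a U else 0) - if c = a then proj s b U else 0 := by
  simp only [proj, mm_apply, of_symm_apply, pk_apply, Pi.single_apply, sub_mul,
    Finset.sum_sub_distrib, ite_mul, mul_ite, one_mul, mul_one, zero_mul, mul_zero,
    Finset.sum_ite_eq', Finset.mem_univ, if_true]
  congr 1 <;> split_ifs <;> simp

lemma sum_proj_sq {U : Arr2 N} (hU : (of U)ᵀ * of U = 1) (s : Fin N → ℝ) :
    ∑ c, proj s c U ^ 2 = ∑ j, s j ^ 2 := by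
  have h : (of U *ᵥ s) ⬝ᵥ (of U *ᵥ s) = s ⬝ᵥ s := by
    rw [dotProduct_mulVec, ← mulVec_transpose, mulVec_mulVec, hU, one_mulVec]
  simpa [dotProduct, mulVec, sq, proj] using h

/-- The energy of a configuration under a diagonal spectrum. -/
noncomputable def quad (β : ℝ) (l s : Fin N → ℝ) (U : Arr2 N) : ℝ := β / 2 * ∑ c, l c * proj s c U ^ 2

lemma contDiff_quad (β : ℝ) (l s : Fin N → ℝ) : ContDiff ℝ 1 (quad β l s) := by
  unfold quad proj
  fun_prop

lemma dl_quad (β : ℝ) (l s : Fin N → ℝ) (a b : Fin N) (U : Arr2 N) :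
    dl (quad β l s) a b U = β * (l b - l a) * (proj s a U * proj s b U) := by
  set V := mm (of.symm (pk a (Pi.single b 1))) U with hV
  have hlin : ∀ c (t : ℝ), proj s c (U + t • V) = proj s c U + t * proj s c V := fun c t => by
    simp only [proj, Pi.add_apply, Pi.smul_apply, smul_eq_mul, add_mul, Finset.sum_add_distrib,
      Finset.mul_sum, mul_assoc]
  have h1 : HasDerivAt (fun t : ℝ => quad β l s (U + t • V))
      (β * ∑ c, l c * (proj s c U * proj s c V)) 0 := by
    simp only [quad, hlin]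
    have h0 : ∀ c, HasDerivAt (fun t : ℝ => l c * (proj s c U + t * proj s c V) ^ 2)
        (l c * (2 * (proj s c U * proj s c V))) 0 := fun c => by
      simpa [mul_assoc] using
        ((((hasDerivAt_id (0 : ℝ)).mul_const (proj s c V)).const_add (proj s c U)).pow 2).const_mul (l c)
    refine ((HasDerivAt.fun_sum fun c (_ : c ∈ Finset.univ) => h0 c).const_mul (β / 2)).congr_deriv ?_
    simp only [Finset.mul_sum]
    exact Finset.sum_congr rfl fun c _ => by ring
  have h2 : HasDerivAt (fun t : ℝ => U + t • V) V 0 := by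
    simpa using ((hasDerivAt_id (0 : ℝ)).smul_const V).const_add U
  have h3 := (((contDiff_quad β l s).differentiable one_ne_zero) U).hasFDerivAt.comp_hasDerivAt_of_eq
    0 h2 (by simp)
  rw [dl, ← hV, h3.unique h1]
  simp only [hV, proj_pk, mul_sub, mul_ite, mul_zero, Finset.sum_sub_distrib, Finset.sum_ite_eq',
    Finset.mem_univ, if_true]
  ring

lemma sum_dl_quad_sq_le (β : ℝ) {l : Fin N → ℝ} {L : ℝ} (hl : ∀ c, |l c| ≤ L) (s : Fin N → ℝ)
    {U : Arr2 N} (hU : (of U)ᵀ * of U = 1) :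
    ∑ a, ∑ b, dl (quad β l s) a b U ^ 2 ≤ 4 * β ^ 2 * L ^ 2 * (∑ j, s j ^ 2) ^ 2 := by
  have hb : ∀ a b, dl (quad β l s) a b U ^ 2 ≤
      4 * β ^ 2 * L ^ 2 * (proj s a U ^ 2 * proj s b U ^ 2) := fun a b => by
    rw [dl_quad, mul_pow, mul_pow (proj s a U), mul_pow β]
    refine mul_le_mul_of_nonneg_right ?_ (by positivity)
    have h2 : (l b - l a) ^ 2 ≤ (2 * L) ^ 2 := by
      have h1 := _root_.abs_le.1 (hl a)
      have h3 := _root_.abs_le.1 (hl b)
      exact sq_le_sq' (by linarith) (by linarith)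
    nlinarith [mul_le_mul_of_nonneg_left h2 (sq_nonneg β)]
  calc _ ≤ ∑ a, ∑ b, 4 * β ^ 2 * L ^ 2 * (proj s a U ^ 2 * proj s b U ^ 2) :=
        Finset.sum_le_sum fun a _ => Finset.sum_le_sum fun b _ => hb a b
    _ = _ := by simp only [← Finset.mul_sum, ← Finset.sum_mul, sum_proj_sq hU]; ring

lemma quad_flip (β : ℝ) (l s : Fin N → ℝ) (e : Fin N) (U : Arr2 N) :
    quad β l s (mm (flip1 e) U) = quad β l s U := by
  have h : ∀ c, proj s c (mm (flip1 e) U) = (if c = e then -1 else 1) * proj s c U := fun c => by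
    simp only [proj, mm, flip1, Equiv.apply_symm_apply, of_symm_apply, diagonal_mul, of_apply,
      Finset.mul_sum, mul_assoc]
  simp only [quad, h]
  congr 1
  exact Finset.sum_congr rfl fun c _ => by split <;> ring

end Vale.Agent.P166F.Orth
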