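import Vale.Agent.P166F.Haar.Plane

/-!
Averages over the stabilisers of coordinates, and rotations acting on functions.
-/

namespace Vale.Agent.P166F.Orth

open MeasureTheory Matrix Filter
open scoped Interval
open Vale.Agent.P166N.Spectrum (OrthInvLaw)

variable {N : ℕ} {S T : Finset (Fin N)} {f : Arr2 N → ℝ}

/-- The invariant law fixing `S`. -/
noncomputable def stab (S : Finset (Fin N)) : Measure (Arr2 N) := (StabLaw.exists S).choose

lemma stab_spec (S : Finset (Fin N)) : StabLaw S (stab S) := (StabLaw.exists S).choose_spec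

instance (S : Finset (Fin N)) : IsProbabilityMeasure (stab S) := (stab_spec S).prob

/-- The average over left multiplications fixing `S`. -/
noncomputable def avg (S : Finset (Fin N)) (f : Arr2 N → ℝ) (U : Arr2 N) : ℝ :=
  ∫ V, f (mm V U) ∂stab S

/-- The derivative of `f` along the left rotation in the plane of two coordinates. -/
noncomputable def dl (f : Arr2 N → ℝ) (a b : Fin N) (U : Arr2 N) : ℝ :=
  fderiv ℝ f U (mm (of.symm (pk a (Pi.single b 1))) U)

lemma continuous_avg (S : Finset (Fin N)) (hf : Continuous f) : Continuous (avg S f) :=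
  (stab_spec S).continuous_integral (F := fun U V => f (mm V U))
    (hf.comp (continuous_mm.comp (continuous_snd.prodMk continuous_fst)))

lemma avg_mm (hf : Continuous f) {W : Arr2 N} (hW : Fix S W) (U : Arr2 N) :
    avg S f (mm W U) = avg S f U := by
  simp only [avg, ← mm_assoc]
  exact (stab_spec S).integral_mm_right (F := fun V => f (mm V U))
    (hf.comp (continuous_mm_left U)) hW

lemma ae_fix_prod {μ : Measure (Arr2 N)} [IsProbabilityMeasure μ] {ν : Measure (Arr2 N)}
    [IsProbabilityMeasure ν] (hμ : ∀ᵐ U ∂μ, Fix S U) (hν : ∀ᵐ U ∂ν, Fix T U) :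
    ∀ᵐ p ∂μ.prod ν, Fix S p.1 ∧ Fix T p.2 :=
  (Measure.quasiMeasurePreserving_fst.ae hμ).and (Measure.quasiMeasurePreserving_snd.ae hν)

/-- Continuous functions of two arrays are integrable. -/
lemma integrable_two {μ ν : Measure (Arr2 N)} (hμ : StabLaw S μ) (hν : StabLaw T ν)
    {F : Arr2 N × Arr2 N → ℝ} (hF : Continuous F) : Integrable F (μ.prod ν) := by
  have := hμ.prob
  have := hν.prob
  obtain ⟨C, hC⟩ := (isCompact_cube.prod isCompact_cube).exists_bound_of_continuousOn (f := F)
    hF.continuousOn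
  exact Integrable.of_bound hF.aestronglyMeasurable C ((ae_fix_prod hμ.fix hν.fix).mono fun p hp =>
    hC p ⟨hp.1.mem_cube, hp.2.mem_cube⟩)

/-- Pairing with an invariant function. -/
lemma integral_avg_mul {ν : Measure (Arr2 N)} (hν : StabLaw ∅ ν) (hf : Continuous f)
    {h : Arr2 N → ℝ} (hh : Continuous h) (hinv : ∀ W, Fix S W → ∀ U, h (mm W U) = h U) :
    ∫ U, avg S f U * h U ∂ν = ∫ U, f U * h U ∂ν := by
  have := hν.prob
  have e : ∀ U, avg S f U * h U = ∫ W, f (mm W U) * h U ∂stab S := fun U =>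
    (integral_mul_const _ _).symm
  simp only [e]
  rw [integral_integral_swap (integrable_two hν (stab_spec S)
    (F := fun p => f (mm p.2 p.1) * h p.1) (by fun_prop))]
  have : ∀ᵐ W ∂stab S, ∫ U, f (mm W U) * h U ∂ν = ∫ U, f U * h U ∂ν :=
    (stab_spec S).fix.mono fun W hW => by
      rw [← hν.integral_mm (F := fun U => f U * h U) (hf.mul hh)
        (hW.mono (Finset.empty_subset S))]
      simp only [hinv W hW]
  rw [integral_congr_ae this, integral_const, probReal_univ, one_smul]

lemma avg_avg (hf : Continuous f) (hST : S ⊆ T) (U : Arr2 N) :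
    ∫ V, avg T f (mm V U) ∂stab S = avg S f U := by
  simp only [avg]
  rw [integral_integral_swap (integrable_two (stab_spec S) (stab_spec T)
    (F := fun p => f (mm p.2 (mm p.1 U))) (by fun_prop))]
  have : ∀ᵐ W ∂stab T, ∫ V, f (mm W (mm V U)) ∂stab S = avg S f U :=
    (stab_spec T).fix.mono fun W hW => by
      simp only [← mm_assoc]
      exact (stab_spec S).integral_mm (F := fun X => f (mm X U)) (hf.comp (continuous_mm_left U))
        (hW.mono hST)
  rw [integral_congr_ae this, integral_const, probReal_univ, one_smul]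
  rfl

/-- The square of an average is at most the average of the square. -/
lemma sq_integral_le {α : Type} [MeasurableSpace α] {μ : Measure α} [IsProbabilityMeasure μ]
    {g : α → ℝ} (h1 : Integrable g μ) (h2 : Integrable (fun a => g a ^ 2) μ) :
    (∫ a, g a ∂μ) ^ 2 ≤ ∫ a, g a ^ 2 ∂μ := by
  set m := ∫ a, g a ∂μ
  have h : 0 ≤ ∫ a, (g a - m) ^ 2 ∂μ := integral_nonneg fun a => sq_nonneg _
  have e : (fun a => (g a - m) ^ 2) = fun a => g a ^ 2 - (2 * m * g a - m ^ 2) := by funext a; ring
  have h3 : Integrable (fun a => 2 * m * g a - m ^ 2) μ :=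
    (h1.const_mul _).sub (integrable_const _)
  rw [e, integral_sub h2 h3,
    integral_sub (h1.const_mul _) (integrable_const _), integral_const_mul, integral_const,
    probReal_univ, one_smul] at h
  nlinarith

/-- The quadratic form of the derivatives. -/
noncomputable def dform (ν : Measure (Arr2 N)) (f : Arr2 N → ℝ) (e : Fin N) (ξ : Fin N → ℝ) : ℝ :=
  ∑ j, ∑ l, ξ j * ξ l * ∫ U, dl f e j U * dl f e l U ∂ν

variable {ν : Measure (Arr2 N)}

@[fun_prop]
lemma continuous_dl (hf : ContDiff ℝ 1 f) (a b : Fin N) : Continuous (dl f a b) :=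
  (hf.continuous_fderiv one_ne_zero).clm_apply (continuous_mm_right _)

lemma dl_self (f : Arr2 N → ℝ) (a : Fin N) (U : Arr2 N) : dl f a a U = 0 := by
  have h : mm (of.symm (pk a (Pi.single a 1))) U = 0 := by
    funext i j
    simp [mm_apply, pk]
  rw [dl, h, map_zero]

lemma fderiv_pk (a : Fin N) (ξ : Fin N → ℝ) (U : Arr2 N) :
    fderiv ℝ f U (mm (of.symm (pk a ξ)) U) = ∑ j, ξ j * dl f a j U := by
  have e : mm (of.symm (pk a ξ)) U = ∑ j, ξ j • mm (of.symm (pk a (Pi.single j 1))) U := by
    funext i k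
    simp only [Finset.sum_apply, Pi.smul_apply, smul_eq_mul, mm_apply, of_symm_apply, pk_apply,
      Finset.mul_sum]
    rw [Finset.sum_comm]
    refine Finset.sum_congr rfl fun m _ => ?_
    simp only [Pi.single_apply, sub_mul, mul_sub, Finset.sum_sub_distrib]
    simp only [ite_mul, mul_ite, one_mul, mul_one, zero_mul, mul_zero, Finset.sum_ite_eq,
      Finset.mem_univ, if_true]
    split_ifs <;> simp
  rw [e, map_sum]
  simp only [map_smul, smul_eq_mul, dl]

lemma hasDerivAt_comp_rot (hf : ContDiff ℝ 1 f) {e : Fin N} {ξ : Fin N → ℝ} (hξ : Dir e ξ)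
    (U : Arr2 N) (t : ℝ) : HasDerivAt (fun s => f (mm (rot e ξ s) U))
      (∑ j, ξ j * dl f e j (mm (rot e ξ t) U)) t := by
  rw [← fderiv_pk]
  exact ((hf.differentiable one_ne_zero) _).hasFDerivAt.comp_hasDerivAt t (hasDerivAt_rot hξ U t)

lemma continuous_dirDeriv (hf : ContDiff ℝ 1 f) (e : Fin N) (ξ : Fin N → ℝ) :
    Continuous fun U => ∑ j, ξ j * dl f e j U :=
  continuous_finsetSum _ fun j _ => continuous_const.mul (continuous_dl hf e j)

lemma integral_dirDeriv_sq (hν : StabLaw ∅ ν) (hf : ContDiff ℝ 1 f) (e : Fin N) (ξ : Fin N → ℝ) :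
    ∫ U, (∑ j, ξ j * dl f e j U) ^ 2 ∂ν = dform ν f e ξ := by
  have h : ∀ j l, Integrable (fun U => ξ j * ξ l * (dl f e j U * dl f e l U)) ν := fun j l =>
    hν.integrable (continuous_const.mul ((continuous_dl hf e j).mul (continuous_dl hf e l)))
  have e1 : ∀ U, (∑ j, ξ j * dl f e j U) ^ 2 =
      ∑ j, ∑ l, ξ j * ξ l * (dl f e j U * dl f e l U) := fun U => by
    rw [sq, Finset.sum_mul_sum]
    exact Finset.sum_congr rfl fun j _ => Finset.sum_congr rfl fun l _ => by ring
  simp only [e1, dform]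
  rw [integral_finsetSum _ fun j _ => integrable_finsetSum _ fun l _ => h j l]
  refine Finset.sum_congr rfl fun j _ => ?_
  rw [integral_finsetSum _ fun l _ => h j l]
  simp only [integral_const_mul]

/-- The increment along a rotation, as an integral of the derivative. -/
lemma rot_ftc (hf : ContDiff ℝ 1 f) {e : Fin N} {ξ : Fin N → ℝ} (hξ : Dir e ξ) (θ : ℝ)
    (U : Arr2 N) : ∫ s in Set.Ioc (0 : ℝ) 1, θ * ∑ j, ξ j * dl f e j (mm (rot e ξ (θ * s)) U) =
      f (mm (rot e ξ θ) U) - f U := by
  have hd : ∀ s, HasDerivAt (fun s => f (mm (rot e ξ (θ * s)) U))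
      (θ * ∑ j, ξ j * dl f e j (mm (rot e ξ (θ * s)) U)) s := fun s => by
    have h1 : HasDerivAt (fun s : ℝ => θ * s) θ s := by
      simpa using (hasDerivAt_id s).const_mul θ
    rw [mul_comm]
    exact (hasDerivAt_comp_rot hf hξ U (θ * s)).comp s h1
  have hc : Continuous fun s : ℝ => θ * ∑ j, ξ j * dl f e j (mm (rot e ξ (θ * s)) U) :=
    continuous_const.mul ((continuous_dirDeriv hf e ξ).comp ((continuous_mm_left U).comp
      ((continuous_rot e ξ).comp (continuous_const.mul continuous_id))))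
  rw [← intervalIntegral.integral_of_le zero_le_one,
    intervalIntegral.integral_eq_sub_of_hasDerivAt (fun s _ => hd s) (hc.intervalIntegrable 0 1),
    mul_one, mul_zero, rot_zero, show mm (of.symm 1) U = U by simp [mm] ]

lemma integrable_line (hν : StabLaw ∅ ν) {Φ : Arr2 N × ℝ → ℝ} (hΦ : Continuous Φ) :
    Integrable Φ (ν.prod (volume.restrict (Set.Ioc 0 1))) := by
  have := hν.prob
  obtain ⟨C, hC⟩ := (isCompact_cube.prod isCompact_Icc).exists_bound_of_continuousOn
    (s := cube N ×ˢ Set.Icc (0 : ℝ) 1) (f := Φ) hΦ.continuousOn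
  refine Integrable.of_bound hΦ.aestronglyMeasurable C ?_
  filter_upwards [Measure.quasiMeasurePreserving_fst.ae hν.fix,
    Measure.quasiMeasurePreserving_snd.ae (ae_restrict_mem measurableSet_Ioc)] with p h1 h2
  exact hC p ⟨h1.mem_cube, Set.Ioc_subset_Icc_self h2⟩

/-- One rotation moves `f` by at most the angle times the derivative. -/
lemma rot_sq_le (hν : StabLaw ∅ ν) (hf : ContDiff ℝ 1 f) {e : Fin N} {ξ : Fin N → ℝ}
    (hξ : Dir e ξ) (θ : ℝ) :
    ∫ U, (f U - f (mm (rot e ξ θ) U)) ^ 2 ∂ν ≤ θ ^ 2 * dform ν f e ξ := by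
  have := hν.prob
  set τ : Measure ℝ := volume.restrict (Set.Ioc 0 1) with hτ
  have : IsProbabilityMeasure τ := ⟨by simp [τ]⟩
  have hrot : Continuous fun p : Arr2 N × ℝ => mm (rot e ξ (θ * p.2)) p.1 :=
    continuous_mm.comp (((continuous_rot e ξ).comp (continuous_const.mul continuous_snd)).prodMk
      continuous_fst)
  set Φ : Arr2 N × ℝ → ℝ := fun p => θ * ∑ j, ξ j * dl f e j (mm (rot e ξ (θ * p.2)) p.1)
  have hΦ : Continuous Φ := continuous_const.mul ((continuous_dirDeriv hf e ξ).comp hrot)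
  have hI : Integrable (fun p => Φ p ^ 2) (ν.prod τ) := integrable_line hν (hΦ.pow 2)
  have hpt : ∀ U, (f U - f (mm (rot e ξ θ) U)) ^ 2 ≤ ∫ s, Φ (U, s) ^ 2 ∂τ := fun U => by
    have hc : Continuous fun s => Φ (U, s) := hΦ.comp (continuous_const.prodMk continuous_id)
    rw [← neg_sub (f (mm (rot e ξ θ) U)) (f U), neg_sq, ← rot_ftc hf hξ θ U]
    exact sq_integral_le hc.integrableOn_Ioc (hc.pow 2).integrableOn_Ioc
  have hs : ∀ s, ∫ U, Φ (U, s) ^ 2 ∂ν = θ ^ 2 * dform ν f e ξ := fun s => by
    simp only [Φ, mul_pow, integral_const_mul]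
    rw [hν.integral_mm (F := fun U => (∑ j, ξ j * dl f e j U) ^ 2)
      ((continuous_dirDeriv hf e ξ).pow 2) (fix_rot hξ (Finset.notMem_empty e)
      (fun i hi => absurd hi (Finset.notMem_empty i)) _), integral_dirDeriv_sq hν hf]
  refine (integral_mono (hν.integrable ((hf.continuous.sub
    (hf.continuous.comp (continuous_mm_right _))).pow 2)) hI.integral_prod_left hpt).trans
      (le_of_eq ?_)
  rw [integral_integral_swap (f := fun U s => Φ (U, s) ^ 2) hI,
    integral_congr_ae (Eventually.of_forall hs), integral_const, probReal_univ, one_smul]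

/-- Integration by parts along a rotation: derivatives integrate to zero. -/
theorem integral_dl (hν : StabLaw ∅ ν) (hf : ContDiff ℝ 1 f) (a b : Fin N) :
    ∫ U, dl f a b U ∂ν = 0 := by
  rcases eq_or_ne a b with rfl | hab
  · simp [dl_self]
  have := hν.prob
  set τ : Measure ℝ := volume.restrict (Set.Ioc 0 1) with hτ
  have : IsProbabilityMeasure τ := ⟨by simp [τ]⟩
  have hξ : Dir a (Pi.single b (1 : ℝ)) := ⟨by simp [hab], Or.inr (by simp)⟩
  set Φ : Arr2 N × ℝ → ℝ := fun p => dl f a b (mm (rot a (Pi.single b 1) p.2) p.1)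
  have hΦ : Continuous Φ := (continuous_dl hf a b).comp
    (continuous_mm.comp (((continuous_rot _ _).comp continuous_snd).prodMk continuous_fst))
  have hp : ∀ U, ∫ s, Φ (U, s) ∂τ = f (mm (rot a (Pi.single b 1) 1) U) - f U := fun U => by
    rw [← rot_ftc hf hξ 1 U]
    simp [Φ, hτ, Pi.single_apply]
  have h0 := integral_integral_swap (f := fun U s => Φ (U, s)) (integrable_line hν hΦ)
  have hm : ∀ s : ℝ, ∫ U, Φ (U, s) ∂ν = ∫ U, dl f a b U ∂ν := fun s =>
    hν.integral_mm (continuous_dl hf a b) (fix_rot hξ (Finset.notMem_empty a)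
      (fun i hi => absurd hi (Finset.notMem_empty i)) s)
  have hcR : Continuous fun U => f (mm (rot a (Pi.single b (1 : ℝ)) 1) U) :=
    hf.continuous.comp (continuous_mm_right _)
  rw [← hτ] at h0
  simp only [hp] at h0
  rw [integral_congr_ae (Eventually.of_forall hm), integral_const, probReal_univ, one_smul,
    integral_sub (hν.integrable hcR)
      (hν.integrable hf.continuous),
    hν.integral_mm hf.continuous (fix_rot hξ (Finset.notMem_empty a)
      (fun i hi => absurd hi (Finset.notMem_empty i)) 1), sub_self] at h0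
  exact h0.symm

end Vale.Agent.P166F.Orth
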