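import Vale.Agent.P166.Finite
import Vale.Agent.P166F.Haar.LogSum

/-!
P166: concentration of the pressure for any bounded spectrum.
-/

namespace Vale.Agent.P166F

open MeasureTheory Filter Matrix
open scoped Topology
open Vale.Agent.P166 (pressure Admissible spin)
open Vale.Agent.P166N.Spectrum (OrthInvLaw)

variable {N : ℕ}

lemma quad_eq_energy (β : ℝ) (l : Fin N → ℝ) (U : Fin N → Fin N → ℝ) (s : Fin N → ℝ) :
    β / 2 * (s ⬝ᵥ (((of U)ᵀ * diagonal l * of U) *ᵥ s)) = Orth.quad β l s U := by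
  rw [← mulVec_mulVec, ← mulVec_mulVec, dotProduct_mulVec, vecMul_transpose, Orth.quad]
  congr 1
  simp only [dotProduct, mulVec_diagonal]
  refine Finset.sum_congr rfl fun c _ => ?_
  simp only [Orth.proj, mulVec, dotProduct, of_apply]
  ring

lemma pressure_eq_lse (β : ℝ) (l : Fin N → ℝ) (U : Fin N → Fin N → ℝ) :
    pressure N β l U = (N : ℝ)⁻¹ * Real.log (((2 : ℝ) ^ N)⁻¹) +
      (N : ℝ)⁻¹ * Orth.lse (fun σ : Fin N → Bool => Orth.quad β l fun j => spin (σ j)) U := by
  simp only [pressure, quad_eq_energy]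
  rw [Real.log_mul (by positivity) (Orth.sum_exp_pos _ U).ne', mul_add]
  rfl

/-- The deviation of the pressure is of order `N ^ (-1/2)`. -/
theorem pressure_mad_le {ν : Measure (Fin N → Fin N → ℝ)} (hν : OrthInvLaw N ν) (β : ℝ)
    {l : Fin N → ℝ} {L : ℝ} (hl : ∀ c, |l c| ≤ L) :
    ∫ U, |pressure N β l U - ∫ U', pressure N β l U' ∂ν| ∂ν ≤
      Real.sqrt (2 * Real.pi ^ 2 * β ^ 2 * L ^ 2 / N) := by
  have hs := Orth.OrthInvLaw.stabLaw hν
  have := hν.prob
  set h : (Fin N → Bool) → (Fin N → Fin N → ℝ) → ℝ := fun σ => Orth.quad β l fun j => spin (σ j)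
  have hh : ∀ σ, ContDiff ℝ 1 (h σ) := fun σ => Orth.contDiff_quad _ _ _
  have hsum : ∀ σ : Fin N → Bool, ∑ j, spin (σ j) ^ 2 = (N : ℝ) := fun σ => by simp [spin]
  have hvar := Orth.variance_lse_le hs hh (B := 4 * β ^ 2 * L ^ 2 * (N : ℝ) ^ 2) fun U hU σ =>
    (Orth.sum_dl_quad_sq_le β hl _ hU.1).trans_eq (by rw [hsum σ])
  have hflip : ∀ e U, Orth.lse h (Orth.mm (Orth.flip1 e) U) = Orth.lse h U := fun e U => by
    simp only [Orth.lse, h, Orth.quad_flip]
  simp only [hflip, sub_self, ne_eq, OfNat.ofNat_ne_zero, not_false_eq_true, zero_pow,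
    integral_zero, Finset.sum_const_zero, mul_zero, add_zero] at hvar
  have hc : Continuous (Orth.lse h) := (Orth.contDiff_lse hh).continuous
  simp only [pressure_eq_lse]
  rw [integral_add (integrable_const _) ((hs.integrable hc).const_mul _), integral_const,
    probReal_univ, one_smul, integral_const_mul]
  simp only [add_sub_add_left_eq_sub, ← mul_sub]
  have hd : Continuous fun U => (N : ℝ)⁻¹ * (Orth.lse h U - ∫ V, Orth.lse h V ∂ν) := by fun_prop
  refine Orth.mad_le_sqrt (hs.integrable hd) (hs.integrable (hd.pow 2)) ?_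
  simp only [mul_pow, integral_const_mul]
  rcases Nat.eq_zero_or_pos N with rfl | hN
  · simp
  refine (mul_le_mul_of_nonneg_left hvar (sq_nonneg _)).trans (le_of_eq ?_)
  have : (N : ℝ) ≠ 0 := by positivity
  field_simp
  ring

theorem orth_conc' {μ : Measure ℝ} {β : ℝ} {Λ : (N : ℕ) → Fin N → ℝ} (hΛ : Admissible μ Λ)
    {ν : (N : ℕ) → Measure (Fin N → Fin N → ℝ)} (hν : ∀ N, OrthInvLaw N (ν N)) :
    Tendsto (fun N => ∫ U, |pressure N β (Λ N) U - ∫ U', pressure N β (Λ N) U' ∂ν N| ∂ν N) atTop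
      (𝓝 0) := by
  set L := max |sSup μ.support| |sInf μ.support| + 1
  have hev : ∀ᶠ N in atTop, ∀ c, |Λ N c| ≤ L := by
    filter_upwards [hΛ.top.eventually (gt_mem_nhds (lt_add_one (sSup μ.support))),
      hΛ.bot.eventually (lt_mem_nhds (sub_one_lt (sInf μ.support)))] with N h1 h2 c
    have h3 := le_ciSup (Finite.bddAbove_range (Λ N)) c
    have h4 := ciInf_le (Finite.bddBelow_range (Λ N)) c
    have h5 := le_max_left |sSup μ.support| |sInf μ.support|
    have h6 := le_max_right |sSup μ.support| |sInf μ.support|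
    have h7 := le_abs_self (sSup μ.support)
    have h8 := neg_abs_le (sInf μ.support)
    exact _root_.abs_le.2 ⟨by linarith, by linarith⟩
  refine squeeze_zero' (Eventually.of_forall fun N => integral_nonneg fun U => abs_nonneg _)
    (hev.mono fun N h => pressure_mad_le (hν N) β h) ?_
  have h := (tendsto_const_div_atTop_nhds_zero_nat (2 * Real.pi ^ 2 * β ^ 2 * L ^ 2)).sqrt
  simpa using h

end Vale.Agent.P166F
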