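import Vale.Agent.P166F.Haar.Stab

/-!
Plane rotations through one coordinate vector, and the rotation carrying it to a given column.
-/

namespace Vale.Agent.P166F.Orth

open MeasureTheory Matrix Real

variable {N : ℕ}

/-- The generator of rotations in the plane of `e` and `ξ`. -/
noncomputable def pk (e : Fin N) (ξ : Fin N → ℝ) : Matrix (Fin N) (Fin N) ℝ :=
  vecMulVec ξ (Pi.single e 1) - vecMulVec (Pi.single e 1) ξ

/-- A unit vector orthogonal to `e`, or zero. -/
def Dir (e : Fin N) (ξ : Fin N → ℝ) : Prop :=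
  ξ e = 0 ∧ (ξ = 0 ∨ ξ ⬝ᵥ ξ = 1)

/-- The rotation by the angle `t`. -/
noncomputable def rot (e : Fin N) (ξ : Fin N → ℝ) (t : ℝ) : Arr2 N :=
  of.symm (1 + Real.sin t • pk e ξ + (1 - Real.cos t) • (pk e ξ * pk e ξ))

variable {e : Fin N} {ξ : Fin N → ℝ}

lemma pk_apply (e : Fin N) (ξ : Fin N → ℝ) (i j : Fin N) :
    pk e ξ i j = ξ i * (if j = e then 1 else 0) - (if i = e then 1 else 0) * ξ j := by
  simp [pk, vecMulVec_apply, Pi.single_apply]

lemma pk_transpose (e : Fin N) (ξ : Fin N → ℝ) : (pk e ξ)ᵀ = -pk e ξ := by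
  rw [pk, transpose_sub, transpose_vecMulVec, transpose_vecMulVec, neg_sub]

lemma pk_cube (h : Dir e ξ) : pk e ξ * pk e ξ * pk e ξ = -pk e ξ := by
  rcases h.2 with h0 | h1
  · simp [pk, h0]
  · have he : (Pi.single e (1 : ℝ)) ⬝ᵥ (Pi.single e 1) = 1 := by simp
    have hx : ξ ⬝ᵥ Pi.single e 1 = 0 := by simp [h.1]
    have hx' : Pi.single e 1 ⬝ᵥ ξ = 0 := by simp [h.1]
    simp only [pk, sub_mul, mul_sub, vecMulVec_mul_vecMulVec, h1, he, hx, hx', zero_smul, one_smul,
      vecMulVec_zero, sub_zero, zero_sub, sub_neg_eq_add, neg_mul]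
    abel

lemma pk_quad (h : Dir e ξ) :
    pk e ξ * pk e ξ * (pk e ξ * pk e ξ) = -(pk e ξ * pk e ξ) := by
  rw [← Matrix.mul_assoc, pk_cube h, neg_mul]

/-- Rotations are orthogonal. -/
lemma rot_orth (h : Dir e ξ) (t : ℝ) : (of (rot e ξ t))ᵀ * of (rot e ξ t) = 1 := by
  simp only [rot, Equiv.apply_symm_apply]
  set K := pk e ξ
  have hT : (1 + sin t • K + (1 - cos t) • (K * K))ᵀ = 1 - sin t • K + (1 - cos t) • (K * K) := by
    simp only [transpose_add, transpose_one, transpose_smul, transpose_mul, K, pk_transpose, neg_mul,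
      mul_neg, neg_neg, smul_neg]
    abel
  rw [hT]
  have e3 : K * (K * K) = -K := by rw [← Matrix.mul_assoc]; exact pk_cube h
  simp only [add_mul, mul_add, sub_mul, smul_mul_assoc, mul_smul_comm, one_mul, mul_one,
    pk_cube h, e3, pk_quad h, smul_neg, K]
  match_scalars <;> linarith [Real.sin_sq_add_cos_sq t]

@[fun_prop]
lemma continuous_rot (e : Fin N) (ξ : Fin N → ℝ) : Continuous (rot e ξ) := by
  refine continuous_pi fun i => continuous_pi fun j => ?_
  simp only [rot, of_symm_apply, Matrix.add_apply, Matrix.smul_apply, smul_eq_mul]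
  fun_prop

lemma rot_zero (e : Fin N) (ξ : Fin N → ℝ) : rot e ξ 0 = of.symm 1 := by simp [rot]

/-- The derivative of a rotation acting on an array. -/
lemma hasDerivAt_rot (h : Dir e ξ) (U : Arr2 N) (t : ℝ) :
    HasDerivAt (fun s => mm (rot e ξ s) U) (mm (of.symm (pk e ξ)) (mm (rot e ξ t) U)) t := by
  rw [← mm_assoc]
  refine hasDerivAt_pi.2 fun i => hasDerivAt_pi.2 fun j => ?_
  simp only [mm_apply]
  refine HasDerivAt.fun_sum fun k _ => HasDerivAt.mul_const ?_ (U k j)
  have hK : (mm (of.symm (pk e ξ)) (rot e ξ t)) i k =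
      (cos t • pk e ξ + sin t • (pk e ξ * pk e ξ)) i k := by
    simp only [mm, rot, Equiv.apply_symm_apply, of_symm_apply]
    rw [mul_add, mul_add, Matrix.mul_one, Matrix.mul_smul, Matrix.mul_smul, ← Matrix.mul_assoc,
      pk_cube h]
    simp only [Matrix.add_apply, Matrix.smul_apply, Matrix.neg_apply, smul_eq_mul]
    ring
  rw [← mm_apply, hK]
  simp only [rot, of_symm_apply, Matrix.add_apply, Matrix.smul_apply, smul_eq_mul]
  have := (((hasDerivAt_sin t).mul_const (pk e ξ i k)).const_add ((1 : Matrix (Fin N) (Fin N) ℝ) i k)).add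
    (((hasDerivAt_cos t).const_sub 1).mul_const ((pk e ξ * pk e ξ) i k))
  simpa [Pi.add_def] using this

/-- A rotation fixes the coordinates away from its plane. -/
lemma fix_rot {S : Finset (Fin N)} (h : Dir e ξ) (he : e ∉ S) (hξ : ∀ i ∈ S, ξ i = 0) (t : ℝ) :
    Fix S (rot e ξ t) := by
  refine ⟨rot_orth h t, fun i hi j => ?_⟩
  have hie : i ≠ e := fun hh => he (hh ▸ hi)
  have hr : ∀ k, pk e ξ i k = 0 := fun k => by simp [pk_apply, hξ i hi, hie]
  have hc : ∀ k, pk e ξ k i = 0 := fun k => by simp [pk_apply, hξ i hi, hie]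
  constructor
  · simp [rot, Matrix.mul_apply, hr, Matrix.one_apply]
  · simp [rot, Matrix.mul_apply, hc, Matrix.one_apply, eq_comm]

/-- Conjugation of a rotation by a matrix fixing `e`. -/
lemma rot_conj {S : Finset (Fin N)} {W : Arr2 N} (hW : Fix S W) (he : e ∈ S) (ξ : Fin N → ℝ)
    (t : ℝ) : mm W (rot e ξ t) = mm (rot e (of W *ᵥ ξ) t) W := by
  set A := of W
  have h1 : A *ᵥ Pi.single e 1 = Pi.single e 1 := funext fun i => by
    simp [A, (hW.2 e he i).2, Pi.single_apply, eq_comm]
  have h2 : Pi.single e (1 : ℝ) ᵥ* A = Pi.single e 1 := funext fun i => by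
    simp [A, (hW.2 e he i).1, Pi.single_apply, eq_comm]
  have h3 : (A *ᵥ ξ) ᵥ* A = ξ := by rw [vecMul_mulVec, hW.1, vecMul_one]
  have hK : A * pk e ξ = pk e (A *ᵥ ξ) * A := by
    simp only [pk, mul_sub, sub_mul, mul_vecMulVec, vecMulVec_mul, h1, h2, h3]
  simp only [mm, rot, Equiv.apply_symm_apply]
  rw [mul_add, mul_add, add_mul, add_mul, Matrix.mul_one, Matrix.one_mul, Matrix.mul_smul,
    Matrix.mul_smul, Matrix.smul_mul, Matrix.smul_mul, hK, ← Matrix.mul_assoc, hK, Matrix.mul_assoc,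
    hK, ← Matrix.mul_assoc]

/-! ### The rotation carrying `e` to a column -/

/-- The angle of the column `e` with `e`. -/
noncomputable def ang (e : Fin N) (V : Arr2 N) : ℝ := Real.arccos (V e e)

/-- The direction of the column `e` away from `e`. -/
noncomputable def dir (e : Fin N) (V : Arr2 N) (j : Fin N) : ℝ :=
  if j = e then 0 else V j e / Real.sqrt (1 - V e e ^ 2)

@[fun_prop]
lemma measurable_ang (e : Fin N) : Measurable (ang e) :=
  Real.continuous_arccos.measurable.comp ((measurable_pi_apply e).comp (measurable_pi_apply e))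

@[fun_prop]
lemma measurable_dir (e j : Fin N) : Measurable fun V => dir e V j := by
  unfold dir
  split <;> fun_prop

lemma sum_sq_col {S : Finset (Fin N)} {V : Arr2 N} (hV : Fix S V) (e : Fin N) :
    ∑ j ∈ Finset.univ.erase e, V j e ^ 2 = 1 - V e e ^ 2 := by
  have h := congrFun₂ hV.1 e e
  rw [Matrix.mul_apply, Matrix.one_apply_eq] at h
  rw [Finset.sum_erase_eq_sub (Finset.mem_univ e)]
  simp only [transpose_apply, of_apply] at h
  simp only [sq, h]

lemma col_zero {S : Finset (Fin N)} {V : Arr2 N} (hV : Fix S V) {j : Fin N} (hj : j ≠ e)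
    (hs : 1 - V e e ^ 2 = 0) : V j e = 0 := by
  have h := (Finset.sum_eq_zero_iff_of_nonneg (fun i _ => sq_nonneg (V i e))).1
    ((sum_sq_col hV e).trans hs) j (Finset.mem_erase.2 ⟨hj, Finset.mem_univ j⟩)
  exact pow_eq_zero_iff two_ne_zero |>.1 h

lemma sum_dir_sq_le {S : Finset (Fin N)} {V : Arr2 N} (hV : Fix S V) (e : Fin N) :
    dir e V ⬝ᵥ dir e V ≤ 1 ∧ Dir e (dir e V) := by
  have he : dir e V e = 0 := if_pos rfl
  have hn := sum_sq_col hV e
  have hd : dir e V ⬝ᵥ dir e V = (1 - V e e ^ 2) / Real.sqrt (1 - V e e ^ 2) ^ 2 := by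
    rw [dotProduct, ← Finset.add_sum_erase _ _ (Finset.mem_univ e), he, mul_zero, zero_add, ← hn,
      Finset.sum_div]
    refine Finset.sum_congr rfl fun j hj => ?_
    rw [dir, if_neg (Finset.ne_of_mem_erase hj), div_mul_div_comm, hn, ← sq, ← sq]
  have h0 : 0 ≤ 1 - V e e ^ 2 := hn ▸ Finset.sum_nonneg fun j _ => sq_nonneg _
  rw [Real.sq_sqrt h0] at hd
  rcases eq_or_ne (1 - V e e ^ 2) 0 with hz | hz
  · rw [hz, div_zero] at hd
    exact ⟨by rw [hd]; exact zero_le_one, he, Or.inl (dotProduct_self_eq_zero.1 hd)⟩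
  · rw [div_self hz] at hd
    exact ⟨hd.le, he, Or.inr hd⟩

/-- Left multiplication by a matrix fixing `e` keeps the angle and turns the direction. -/
lemma ang_dir_mm {T : Finset (Fin N)} {W : Arr2 N} (hW : Fix T W) (V : Arr2 N)
    (he : e ∈ T) : ang e (mm W V) = ang e V ∧ dir e (mm W V) = of W *ᵥ dir e V := by
  have hee : mm W V e e = V e e := by simp [mm_apply, (hW.2 e he _).1]
  refine ⟨by rw [ang, ang, hee], funext fun j => ?_⟩
  show _ = ∑ k, W j k * dir e V k
  rcases eq_or_ne j e with rfl | hj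
  · rw [dir, if_pos rfl]
    refine (Finset.sum_eq_zero fun k _ => ?_).symm
    rw [(hW.2 j he k).1]
    split_ifs with hjk
    · simp [← hjk, dir]
    · simp
  · rw [dir, if_neg hj, hee, mm_apply, Finset.sum_div]
    refine Finset.sum_congr rfl fun k _ => ?_
    rcases eq_or_ne k e with rfl | hk
    · simp [dir, (hW.2 k he j).2, Ne.symm hj]
    · rw [dir, if_neg hk, mul_div_assoc]

/-- Unless the column is `-e`, undoing the rotation leaves a matrix fixing `e` too. -/
lemma fix_undo {S : Finset (Fin N)} {V : Arr2 N} (hV : Fix S V) (he : e ∉ S) (hne : V e e ≠ -1) :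
    Fix S (rot e (dir e V) (ang e V)) ∧
      Fix (insert e S) (mm (tr (rot e (dir e V) (ang e V))) V) := by
  obtain ⟨-, hdir⟩ := sum_dir_sq_le hV e
  have hS : ∀ i ∈ S, dir e V i = 0 := fun i hi => by
    have hie : i ≠ e := fun hh => he (hh ▸ hi)
    rw [dir, if_neg hie, (hV.2 i hi e).1, if_neg hie, zero_div]
  set R := rot e (dir e V) (ang e V) with hR
  have hRS : Fix S R := fix_rot hdir he hS _
  refine ⟨hRS, ?_⟩
  set Q := mm (tr R) V
  have hQ : Fix S Q := hRS.tr.mul hV
  obtain ⟨hb1, hb2⟩ := _root_.abs_le.1 (hV.abs_le e e)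
  have hcol : ∀ i, R i e = V i e := by
    intro i
    have hsin : Real.sin (ang e V) = Real.sqrt (1 - V e e ^ 2) := Real.sin_arccos _
    have hcos : Real.cos (ang e V) = V e e := Real.cos_arccos hb1 hb2
    have hk : ∀ k, pk e (dir e V) k e = dir e V k := fun k => by simp [pk_apply, hdir.1]
    have hkk : (pk e (dir e V) * pk e (dir e V)) i e =
        -((if i = e then 1 else 0) * (dir e V ⬝ᵥ dir e V)) := by
      simp only [Matrix.mul_apply, hk, pk_apply, sub_mul, Finset.sum_sub_distrib, mul_assoc,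
        ite_mul, one_mul, zero_mul, mul_ite, mul_zero, Finset.sum_ite_eq', Finset.mem_univ, if_true,
        hdir.1, zero_sub, dotProduct]
      split <;> simp
    simp only [hR, rot, of_symm_apply, Matrix.add_apply, Matrix.smul_apply, smul_eq_mul, hk, hkk,
      Matrix.one_apply, hsin, hcos]
    rcases eq_or_ne (1 - V e e ^ 2) 0 with hz | hz
    · have h1 : V e e = 1 := by
        have : (V e e - 1) * (V e e + 1) = 0 := by nlinarith
        rcases mul_eq_zero.1 this with h | h
        · linarith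
        · exact absurd (by linarith) hne
      rcases eq_or_ne i e with rfl | hi
      · simp [h1]
      · simp [hz, hi, col_zero hV hi hz]
    · have hpos : 0 < 1 - V e e ^ 2 := lt_of_le_of_ne (by nlinarith) (Ne.symm hz)
      have hnorm : dir e V ⬝ᵥ dir e V = 1 := hdir.2.resolve_left fun h0 => hz (by
        rw [← sum_sq_col hV e]
        refine Finset.sum_eq_zero fun j hj => ?_
        have hj' := congrFun h0 j
        rw [dir, if_neg (Finset.ne_of_mem_erase hj), Pi.zero_apply, div_eq_zero_iff] at hj'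
        rcases hj' with h | h
        · simp [h]
        · exact absurd h (Real.sqrt_pos.2 hpos).ne')
      rw [hnorm]
      rcases eq_or_ne i e with rfl | hi
      · simp [hdir.1]
      · simp only [if_neg hi, zero_mul, neg_zero, mul_zero, add_zero, zero_add]
        rw [dir, if_neg hi, mul_div_cancel₀ _ (Real.sqrt_ne_zero'.2 hpos)]
  have hcolQ : ∀ i, Q i e = if i = e then 1 else 0 := fun i => by
    have h := congrFun₂ hRS.1 i e
    rw [Matrix.mul_apply, Matrix.one_apply] at h
    simpa [Q, mm_apply, tr, ← hcol] using h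
  refine ⟨hQ.1, fun i hi j => ?_⟩
  rcases Finset.mem_insert.1 hi with rfl | hi
  · refine ⟨?_, by rw [hcolQ j]; simp [eq_comm]⟩
    have h := congrFun₂ hQ.1 i j
    rw [Matrix.mul_apply, Matrix.one_apply] at h
    simpa [hcolQ] using h
  · exact hQ.2 i hi j

end Vale.Agent.P166F.Orth
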