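import Vale.Agent.P166F.Haar.Avg

/-!
The Poincare inequality on the orthogonal group, by induction on the number of free coordinates.
-/

namespace Vale.Agent.P166F.Orth

open MeasureTheory Matrix Filter
open scoped Interval

variable {N : ℕ} {S T : Finset (Fin N)} {f : Arr2 N → ℝ} {ν : Measure (Arr2 N)}

/-- A column is almost never `-e` when two coordinates are free. -/
lemma ae_col_ne {e j : Fin N} (he : e ∉ S) (hj : j ∉ S) (hje : j ≠ e) :
    ∀ᵐ V ∂stab S, V e e ≠ -1 := by
  set ξ : Fin N → ℝ := Pi.single j 1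
  have hξ : Dir e ξ := ⟨by simp [ξ, Ne.symm hje], Or.inr (by simp [ξ])⟩
  have hξS : ∀ i ∈ S, ξ i = 0 := fun i hi => by
    simp [ξ, show i ≠ j from fun h => hj (h ▸ hi)]
  set φ : ℕ → ℝ := fun n => 1 / ((n : ℝ) + 1)
  set B : ℕ → Set (Arr2 N) := fun n => {V | V e e = -Real.cos (φ n) ∧ V j e = -Real.sin (φ n)}
  have hmB : ∀ n, MeasurableSet (B n) := fun n =>
    (measurableSet_eq_fun (by fun_prop) measurable_const).inter
      (measurableSet_eq_fun (by fun_prop) measurable_const)
  have hdis : Pairwise (Function.onFun Disjoint B) := by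
    intro a b hab
    rw [Function.onFun, Set.disjoint_left]
    rintro V ⟨-, ha⟩ ⟨-, hb⟩
    rw [ha, neg_inj] at hb
    have hI : ∀ n, φ n ∈ Set.Icc (-(Real.pi / 2)) (Real.pi / 2) := fun n => by
      have h0 : (0 : ℝ) ≤ φ n := by positivity
      have h1 : φ n ≤ 1 := by
        simp only [φ]
        rw [div_le_one (by positivity)]
        linarith [(Nat.cast_nonneg n : (0 : ℝ) ≤ n)]
      exact ⟨by linarith [Real.pi_gt_three], by linarith [Real.pi_gt_three]⟩
    have h := Real.injOn_sin (hI a) (hI b) hb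
    simp only [φ, one_div, _root_.inv_inj, add_left_inj, Nat.cast_inj] at h
    exact hab h
  have hmem : MeasurableSet {V : Arr2 N | V e e = -1} :=
    measurableSet_eq_fun (by fun_prop) measurable_const
  have hle : ∀ n, stab S {V | V e e = -1} ≤ stab S (B n) := by
    intro n
    conv_rhs => rw [← (stab_spec S).invariant _ (fix_rot hξ he hξS (φ n)),
      Measure.map_apply (continuous_mm_right _).measurable (hmB n)]
    refine measure_mono_ae ((stab_spec S).fix.mono fun V hV h1 => ?_)
    change V e e = -1 at h1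
    have hcz : ∀ k, k ≠ e → V k e = 0 := fun k hk => col_zero hV hk (by rw [h1]; norm_num)
    have hk1 : ∀ k, mm (rot e ξ (φ n)) V k e = -(rot e ξ (φ n) k e) := fun k => by
      rw [mm_apply, Finset.sum_eq_single e (fun m _ hm => by rw [hcz m hm, mul_zero]) (by simp), h1]
      ring
    refine ⟨?_, ?_⟩ <;> rw [hk1, neg_inj] <;>
      simp [rot, pk_apply, Matrix.mul_apply, ξ, Pi.single_apply, hje, Ne.symm hje]
  have hzero : stab S {V | V e e = -1} = 0 := by
    by_contra hne
    have h := (ENNReal.tsum_le_tsum hle).trans_eq (measure_iUnion hdis hmB).symm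
    rw [ENNReal.tsum_const_eq_top_of_ne_zero hne, top_le_iff] at h
    exact measure_ne_top _ _ h
  exact measure_eq_zero_iff_ae_notMem.1 hzero

/-- Second moments of the angle times the direction of a random column. -/
noncomputable def colMom (S : Finset (Fin N)) (e : Fin N) (j l : Fin N) : ℝ :=
  ∫ V, ang e V ^ 2 * (dir e V j * dir e V l) ∂stab S

lemma integrable_colMom (e j l : Fin N) :
    Integrable (fun V => ang e V ^ 2 * (dir e V j * dir e V l)) (stab S) := by
  refine Integrable.of_bound (by fun_prop) (Real.pi ^ 2) ((stab_spec S).fix.mono fun V hV => ?_)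
  have hd := (sum_dir_sq_le hV e).1
  have hb : ∀ i, |dir e V i| ≤ 1 := fun i => by
    have : dir e V i * dir e V i ≤ 1 :=
      (Finset.single_le_sum (f := fun k => dir e V k * dir e V k) (fun k _ => mul_self_nonneg _)
        (Finset.mem_univ i)).trans hd
    exact _root_.abs_le.2 ⟨by nlinarith, by nlinarith⟩
  rw [Real.norm_eq_abs, abs_mul, abs_mul, abs_of_nonneg (sq_nonneg (ang e V))]
  calc ang e V ^ 2 * (|dir e V j| * |dir e V l|) ≤ Real.pi ^ 2 * (1 * 1) :=
        mul_le_mul (pow_le_pow_left₀ (Real.arccos_nonneg _) (Real.arccos_le_pi _) 2)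
          (mul_le_mul (hb j) (hb l) (abs_nonneg _) zero_le_one) (by positivity) (by positivity)
    _ = Real.pi ^ 2 := by ring

/-- The second moments are invariant under the stabiliser of the larger set. -/
lemma colMom_inv {e : Fin N} {W : Arr2 N} (hW : Fix (insert e S) W) (j l : Fin N) :
    ∫ V, ang e V ^ 2 * ((of W *ᵥ dir e V) j * (of W *ᵥ dir e V) l) ∂stab S = colMom S e j l := by
  have hW' : Fix S W := hW.mono (Finset.subset_insert e S)
  conv_rhs => rw [colMom, ← (stab_spec S).invariant W hW',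
    integral_map (continuous_mm_right W).measurable.aemeasurable (by fun_prop)]
  refine integral_congr_ae (Eventually.of_forall fun V => ?_)
  obtain ⟨h1, h2⟩ := ang_dir_mm hW V (Finset.mem_insert_self e S)
  simp only [h1, h2]

lemma diag_fix (d : Fin N → ℝ) (hd : ∀ i, d i * d i = 1) (hT : ∀ i ∈ T, d i = 1) :
    Fix T (of.symm (diagonal d)) := by
  refine ⟨?_, fun i hi j => ?_⟩
  · simp [diagonal_transpose, hd]
  · constructor <;> rcases eq_or_ne i j with rfl | h <;> simp [*, Ne.symm]

lemma colMom_offdiag {e : Fin N} {j l : Fin N} (hjl : j ≠ l) : colMom S e j l = 0 := by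
  by_cases hje : j = e
  · simp [colMom, dir, hje]
  by_cases hj : j ∈ S
  · refine integral_eq_zero_of_ae ((stab_spec S).fix.mono fun V hV => ?_)
    simp [dir, hje, (hV.2 j hj e).1]
  have h := colMom_inv (S := S) (e := e) (W := of.symm (diagonal fun i => if i = j then (-1 : ℝ) else 1))
    (diag_fix _ (fun i => by split <;> norm_num) fun i hi => by
      rw [if_neg]
      rintro rfl
      exact (Finset.mem_insert.1 hi).elim hje hj) j l
  simp only [Equiv.apply_symm_apply, mulVec_diagonal, if_pos, if_neg hjl.symm, neg_mul, one_mul,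
    mul_neg, integral_neg] at h
  rw [← colMom] at h
  linarith

lemma colMom_diag {e : Fin N} {j l : Fin N} (hj : j ∉ insert e S)
    (hl : l ∉ insert e S) : colMom S e j j = colMom S e l l := by
  set π := Equiv.swap j l with hπ
  have hfix : ∀ i ∈ insert e S, π i = i := fun i hi =>
    Equiv.swap_apply_of_ne_of_ne (fun h => hj (h ▸ hi)) fun h => hl (h ▸ hi)
  have h := colMom_inv (S := S) (e := e) (W := fun i k => if π i = k then (1 : ℝ) else 0) ?_ j j
  · simp only [mulVec, dotProduct, of_apply, hπ, Equiv.swap_apply_left, ite_mul, one_mul, zero_mul,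
      Finset.sum_ite_eq, Finset.mem_univ, if_true] at h
    exact h.symm
  · refine ⟨?_, fun i hi k => ⟨by simp [hfix i hi], ?_⟩⟩
    · ext a b
      simp only [Matrix.mul_apply, transpose_apply, of_apply, Matrix.one_apply]
      rw [Finset.sum_eq_single (π.symm a)]
      · by_cases hab : a = b <;> simp [hab]
      · intro k _ hk
        have : π k ≠ a := fun hk' => hk (by rw [← hk', Equiv.symm_apply_apply])
        simp [this]
      · simp
    · rcases eq_or_ne i k with rfl | hik
      · simp [hfix i hi]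
      · show (if π k = i then (1 : ℝ) else 0) = _
        rw [if_neg hik, if_neg fun h : π k = i => hik (π.injective ((hfix i hi).trans h.symm))]

/-- The loss of square norm under averaging, as a mean squared increment. -/
lemma avg_gap (hν : StabLaw ∅ ν) {g : Arr2 N → ℝ} (hg : Continuous g) :
    2 * (∫ U, g U ^ 2 ∂ν - ∫ U, avg S g U ^ 2 ∂ν) =
      ∫ V, ∫ U, (g U - g (mm V U)) ^ 2 ∂ν ∂stab S := by
  have := hν.prob
  have hh := continuous_avg S hg
  have e1 : ∫ U, g U * avg S g U ∂ν = ∫ U, avg S g U ^ 2 ∂ν := by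
    rw [← integral_avg_mul (S := S) hν hg hh fun W hW => avg_mm hg hW]
    simp only [sq]
  have hin : ∀ᵐ V ∂stab S, ∫ U, (g U - g (mm V U)) ^ 2 ∂ν =
      2 * ∫ U, g U ^ 2 ∂ν - 2 * ∫ U, g U * g (mm V U) ∂ν :=
    (stab_spec S).fix.mono fun V hV => by
      have hgV : Continuous fun U => g (mm V U) := hg.comp (continuous_mm_right V)
      have e : (fun U => (g U - g (mm V U)) ^ 2) =
          fun U => g U ^ 2 + g (mm V U) ^ 2 - 2 * (g U * g (mm V U)) := by funext U; ring
      have i1 : Integrable (fun U => g U ^ 2 + g (mm V U) ^ 2) ν :=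
        hν.integrable ((hg.pow 2).add (hgV.pow 2))
      have i2 : Integrable (fun U => g U * g (mm V U)) ν := hν.integrable (hg.mul hgV)
      have i3 : Integrable (fun U => g U ^ 2) ν := hν.integrable (hg.pow 2)
      have i4 : Integrable (fun U => g (mm V U) ^ 2) ν := hν.integrable (hgV.pow 2)
      rw [e, integral_sub i1 (i2.const_mul 2), integral_add i3 i4, integral_const_mul,
        hν.integral_mm (F := fun U => g U ^ 2) (hg.pow 2) (hV.mono (Finset.empty_subset S))]
      ring
  have hF : Continuous fun p : Arr2 N × Arr2 N => g p.2 * g (mm p.1 p.2) :=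
    (hg.comp continuous_snd).mul (hg.comp continuous_mm)
  rw [integral_congr_ae hin, integral_sub (integrable_const _) (((stab_spec S).integrable
      (hν.continuous_integral (F := fun V U => g U * g (mm V U)) hF)).const_mul 2),
    integral_const, probReal_univ, one_smul, integral_const_mul,
    integral_integral_swap (f := fun V U => g U * g (mm V U))
      (integrable_two (stab_spec S) hν hF)]
  simp only [integral_const_mul]
  change _ = _ - 2 * ∫ U, g U * avg S g U ∂ν
  rw [e1]
  ring

lemma quad_bound {e : Fin N} {V W : Arr2 N} (hV : Fix S V) (hW : Fix T W) (j l : Fin N) :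
    ‖ang e V ^ 2 * ((of W *ᵥ dir e V) j * (of W *ᵥ dir e V) l)‖ ≤
      Real.pi ^ 2 * ((N : ℝ) * N) := by
  have hb : ∀ i, |(of W *ᵥ dir e V) i| ≤ N := fun i => by
    refine (Finset.abs_sum_le_sum_abs _ _).trans
      ((Finset.sum_le_card_nsmul Finset.univ (fun k => |W i k * dir e V k|) (1 : ℝ)
        fun k _ => ?_).trans_eq (by simp))
    rw [abs_mul]
    refine mul_le_one₀ (hW.abs_le i k) (abs_nonneg _) ?_
    have : dir e V k * dir e V k ≤ 1 :=
      (Finset.single_le_sum (f := fun k => dir e V k * dir e V k) (fun k _ => mul_self_nonneg _)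
        (Finset.mem_univ k)).trans (sum_dir_sq_le hV e).1
    exact _root_.abs_le.2 ⟨by nlinarith, by nlinarith⟩
  rw [Real.norm_eq_abs, abs_mul, abs_mul, abs_of_nonneg (sq_nonneg (ang e V))]
  exact mul_le_mul (pow_le_pow_left₀ (Real.arccos_nonneg _) (Real.arccos_le_pi _) 2)
    (mul_le_mul (hb j) (hb l) (abs_nonneg _) (by positivity)) (by positivity) (by positivity)

/-- A step to a larger stabiliser costs the form at the rotated column. -/
lemma increment_le (hν : StabLaw ∅ ν) (hf : ContDiff ℝ 1 f) {e : Fin N} (he : e ∉ S)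
    {V : Arr2 N} (hV : Fix S V) (hne : V e e ≠ -1)
    (hi : Integrable (fun W => ang e V ^ 2 * dform ν f e (of W *ᵥ dir e V)) (stab (insert e S))) :
    ∫ U, (avg (insert e S) f U - avg (insert e S) f (mm V U)) ^ 2 ∂ν ≤
      ∫ W, ang e V ^ 2 * dform ν f e (of W *ᵥ dir e V) ∂stab (insert e S) := by
  have := hν.prob
  obtain ⟨hR, hR'⟩ := fix_undo hV he hne
  set R := rot e (dir e V) (ang e V) with hRdef
  set X := mm (tr R) V with hX
  set T' := insert e S
  set g := avg T' f
  have hc := hf.continuous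
  have hg : Continuous g := continuous_avg _ hc
  have hRX : mm R X = V := by
    rw [hX, ← mm_assoc]
    have h1 : mm R (tr R) = of.symm 1 := congrArg of.symm (mul_eq_one_comm.1 hR.1)
    rw [h1]
    simp [mm]
  have e1 : ∀ U, (g U - g (mm V U)) ^ 2 = (fun U => (g U - g (mm R U)) ^ 2) (mm X U) := fun U => by
    show _ = (g (mm X U) - g (mm R (mm X U))) ^ 2
    rw [← mm_assoc, hRX, show g (mm X U) = g U from avg_mm hc hR' U]
  have hgR : Continuous fun U => (g U - g (mm R U)) ^ 2 :=
    (hg.sub (hg.comp (continuous_mm_right R))).pow 2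
  rw [integral_congr_ae (Eventually.of_forall e1),
    hν.integral_mm hgR (hR'.mono (Finset.empty_subset _))]
  set Φ : Arr2 N × Arr2 N → ℝ := fun p => (f (mm p.2 p.1) - f (mm p.2 (mm R p.1))) ^ 2
  have hΦ : Continuous Φ := ((hc.comp (continuous_mm.comp continuous_swap)).sub (hc.comp
    (continuous_mm.comp (continuous_snd.prodMk ((continuous_mm_right R).comp continuous_fst))))).pow 2
  have hI := integrable_two hν (stab_spec T') hΦ
  have hJ : ∀ U, (g U - g (mm R U)) ^ 2 ≤ ∫ W, Φ (U, W) ∂stab T' := fun U => by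
    have c1 : Continuous fun W => f (mm W U) := hc.comp (continuous_mm_left U)
    have c2 : Continuous fun W => f (mm W (mm R U)) := hc.comp (continuous_mm_left _)
    simp only [g, avg, Φ]
    rw [← integral_sub ((stab_spec T').integrable c1) ((stab_spec T').integrable c2)]
    exact sq_integral_le ((stab_spec T').integrable (c1.sub c2))
      ((stab_spec T').integrable ((c1.sub c2).pow 2))
  refine (integral_mono (hν.integrable hgR) hI.integral_prod_left hJ).trans ?_
  rw [integral_integral_swap (f := fun U W => Φ (U, W)) hI]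
  refine integral_mono_ae hI.integral_prod_right hi ((stab_spec T').fix.mono fun W hW => ?_)
  obtain ⟨-, hd⟩ := ang_dir_mm hW V (Finset.mem_insert_self e S)
  have hD : Dir e (of W *ᵥ dir e V) := hd ▸ (sum_dir_sq_le
    ((hW.mono (Finset.subset_insert e S)).mul hV) e).2
  simp only [Φ, hRdef, ← mm_assoc, rot_conj hW (Finset.mem_insert_self e S)]
  simp only [mm_assoc]
  refine le_of_eq_of_le ?_ (rot_sq_le hν hf hD (ang e V))
  exact hν.integral_mm (F := fun U => (f U - f (mm (rot e (of W *ᵥ dir e V) (ang e V)) U)) ^ 2)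
    ((hc.sub (hc.comp (continuous_mm_right _))).pow 2) (hW.mono (Finset.empty_subset _))

/-- One step of the martingale. -/
lemma step_le (hν : StabLaw ∅ ν) (hf : ContDiff ℝ 1 f) {e : Fin N} (he : e ∉ S)
    (hne : (insert e S)ᶜ.Nonempty) :
    ∫ U, avg (insert e S) f U ^ 2 ∂ν - ∫ U, avg S f U ^ 2 ∂ν ≤
      Real.pi ^ 2 / (2 * ((insert e S)ᶜ.card : ℝ)) *
        ∑ j ∈ (insert e S)ᶜ, ∫ U, dl f e j U ^ 2 ∂ν := by
  have := hν.prob
  have hST : S ⊆ insert e S := Finset.subset_insert e S
  have hc := hf.continuous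
  set n : ℝ := ((insert e S)ᶜ.card : ℝ) with hn
  set g := avg (insert e S) f
  have hg : Continuous g := continuous_avg _ hc
  have hgh : avg S g = avg S f := funext (avg_avg hc hST)
  have key := avg_gap (S := S) hν hg
  rw [hgh] at key
  set D : Fin N → Fin N → ℝ := fun j l => ∫ U, dl f e j U * dl f e l U ∂ν
  have hqm : ∀ j l, Measurable fun p : Arr2 N × Arr2 N =>
      ang e p.1 ^ 2 * ((of p.2 *ᵥ dir e p.1) j * (of p.2 *ᵥ dir e p.1) l) := fun j l => by
    simp only [mulVec, dotProduct, of_apply]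
    fun_prop
  have hQi : ∀ j l, Integrable (fun p : Arr2 N × Arr2 N =>
      ang e p.1 ^ 2 * ((of p.2 *ᵥ dir e p.1) j * (of p.2 *ᵥ dir e p.1) l))
      ((stab S).prod (stab (insert e S))) := fun j l =>
    Integrable.of_bound (hqm j l).aestronglyMeasurable _
      ((ae_fix_prod (stab_spec S).fix (stab_spec (insert e S)).fix).mono fun p hp =>
        quad_bound hp.1 hp.2 j l)
  have hQ : ∀ V W, ang e V ^ 2 * dform ν f e (of W *ᵥ dir e V) = ∑ j, ∑ l,
      ang e V ^ 2 * ((of W *ᵥ dir e V) j * (of W *ᵥ dir e V) l) * D j l := fun V W => by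
    simp only [dform, Finset.mul_sum, D, mul_assoc]
  have hQint : Integrable (fun p : Arr2 N × Arr2 N =>
      ang e p.1 ^ 2 * dform ν f e (of p.2 *ᵥ dir e p.1))
      ((stab S).prod (stab (insert e S))) := by
    simp only [hQ]
    exact integrable_finsetSum Finset.univ fun j _ => integrable_finsetSum Finset.univ fun l _ =>
      (hQi j l).mul_const (D j l)
  obtain ⟨k, hk⟩ := hne
  have hk' : k ∉ insert e S := Finset.mem_compl.1 hk
  rw [Finset.mem_insert, not_or] at hk'
  have hbound : ∀ᵐ V ∂stab S, ∫ U, (g U - g (mm V U)) ^ 2 ∂ν ≤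
      ∫ W, ang e V ^ 2 * dform ν f e (of W *ᵥ dir e V) ∂stab (insert e S) := by
    filter_upwards [(stab_spec S).fix, ae_col_ne he hk'.2 hk'.1, hQint.prod_right_ae]
      with V hV hVne hVi
    exact increment_le hν hf he hV hVne hVi
  set c := colMom S e k k
  have hzero : ∀ j ∈ insert e S, colMom S e j j = 0 := by
    intro j hj
    refine integral_eq_zero_of_ae ((stab_spec S).fix.mono fun V hV => ?_)
    rcases eq_or_ne j e with rfl | hje
    · simp [dir]
    · simp [dir, hje, (hV.2 j ((Finset.mem_insert.1 hj).resolve_left hje) e).1]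
  have hdiag : ∀ j ∈ (insert e S)ᶜ, colMom S e j j = c := fun j hj =>
    colMom_diag (Finset.mem_compl.1 hj) (Finset.mem_compl.1 hk)
  have hc0 : 0 ≤ c := integral_nonneg fun V => mul_nonneg (sq_nonneg _) (mul_self_nonneg _)
  have hcn : n * c ≤ Real.pi ^ 2 := by
    have e1 : n * c = ∑ j ∈ (insert e S)ᶜ, colMom S e j j := by
      rw [Finset.sum_congr rfl hdiag, Finset.sum_const, nsmul_eq_mul]
    rw [e1]
    simp only [colMom]
    rw [← integral_finsetSum _ fun j _ => integrable_colMom e j j]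
    refine (integral_mono_ae (integrable_finsetSum _ fun j _ => integrable_colMom e j j)
      (integrable_const (Real.pi ^ 2)) ((stab_spec S).fix.mono fun V hV => ?_)).trans_eq (by simp)
    simp only [← Finset.mul_sum]
    refine (mul_le_mul (pow_le_pow_left₀ (Real.arccos_nonneg _) (Real.arccos_le_pi _) 2)
      ((Finset.sum_le_univ_sum_of_nonneg fun j => mul_self_nonneg (dir e V j)).trans
        (sum_dir_sq_le hV e).1) (Finset.sum_nonneg fun j _ => mul_self_nonneg _)
      (sq_nonneg _)).trans_eq (mul_one _)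
  have hW : ∀ᵐ W ∂stab (insert e S), ∫ V, ang e V ^ 2 * dform ν f e (of W *ᵥ dir e V) ∂stab S =
      c * ∑ j ∈ (insert e S)ᶜ, D j j :=
    (stab_spec (insert e S)).fix.mono fun W hW => by
      simp only [hQ]
      have hiq : ∀ j l, Integrable (fun V =>
          ang e V ^ 2 * ((of W *ᵥ dir e V) j * (of W *ᵥ dir e V) l) * D j l) (stab S) := fun j l =>
        (Integrable.of_bound ((hqm j l).comp (measurable_id.prodMk measurable_const)).aestronglyMeasurable
          (Real.pi ^ 2 * ((N : ℝ) * N))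
          ((stab_spec S).fix.mono fun V hV => quad_bound hV hW j l)).mul_const _
      rw [integral_finsetSum _ fun j _ => integrable_finsetSum _ fun l _ => hiq j l, Finset.mul_sum]
      simp only [fun j => integral_finsetSum (μ := stab S) Finset.univ fun l _ => hiq j l,
        integral_mul_const, colMom_inv hW]
      rw [← Finset.sum_subset (Finset.subset_univ (insert e S)ᶜ)]
      · refine Finset.sum_congr rfl fun j hj => ?_
        rw [Finset.sum_eq_single j (fun l _ hl => by rw [colMom_offdiag hl.symm, zero_mul])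
          (by simp), hdiag j hj]
      · intro j _ hj
        refine Finset.sum_eq_zero fun l _ => ?_
        rcases eq_or_ne j l with rfl | hjl
        · rw [hzero j (by rw [Finset.mem_compl, not_not] at hj; exact hj), zero_mul]
        · rw [colMom_offdiag hjl, zero_mul]
  have hDsum : 0 ≤ ∑ j ∈ (insert e S)ᶜ, D j j :=
    Finset.sum_nonneg fun j _ => integral_nonneg fun U => mul_self_nonneg _
  have h2 : 2 * (∫ U, g U ^ 2 ∂ν - ∫ U, avg S f U ^ 2 ∂ν) ≤ c * ∑ j ∈ (insert e S)ᶜ, D j j := by
    rw [key]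
    refine (integral_mono_ae ?_ hQint.integral_prod_left hbound).trans (le_of_eq ?_)
    · exact (stab_spec S).integrable (hν.continuous_integral
        (F := fun V U => (g U - g (mm V U)) ^ 2) (((hg.comp continuous_snd).sub
          (hg.comp continuous_mm)).pow 2))
    · rw [integral_integral_swap (f := fun V W => ang e V ^ 2 * dform ν f e (of W *ᵥ dir e V))
        hQint, integral_congr_ae hW, integral_const, probReal_univ, one_smul]
  have hnpos : 0 < n := by
    rw [hn]
    exact_mod_cast Finset.card_pos.2 ⟨k, hk⟩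
  have hcle : c ≤ Real.pi ^ 2 / n := (le_div_iff₀ hnpos).2 (by linarith)
  calc ∫ U, g U ^ 2 ∂ν - ∫ U, avg S f U ^ 2 ∂ν ≤ c / 2 * ∑ j ∈ (insert e S)ᶜ, D j j := by linarith
    _ ≤ (Real.pi ^ 2 / n) / 2 * ∑ j ∈ (insert e S)ᶜ, D j j :=
      mul_le_mul_of_nonneg_right (by linarith) hDsum
    _ = _ := by simp only [D, ← sq]; ring

/-- The flip of one coordinate. -/
noncomputable def flip1 (e : Fin N) : Arr2 N :=
  of.symm (diagonal fun i => if i = e then (-1 : ℝ) else 1)

/-- Apart from the identity, only a flip fixes all coordinates but one. -/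
lemma fix_compl_single {e : Fin N} {V : Arr2 N} (hS : Sᶜ ⊆ {e}) (hV : Fix S V) :
    V = of.symm 1 ∨ V = flip1 e := by
  have hm : ∀ i, i ≠ e → i ∈ S := fun i hi => by
    by_contra h
    exact hi (Finset.mem_singleton.1 (hS (Finset.mem_compl.2 h)))
  have hout : ∀ i k, ¬(i = e ∧ k = e) → V i k = if i = k then 1 else 0 := fun i k h => by
    by_cases hi : i = e
    · rw [(hV.2 k (hm k fun hk => h ⟨hi, hk⟩) i).2]
      simp [eq_comm]
    · exact (hV.2 i (hm i hi) k).1
  have hee : V e e ^ 2 = 1 := by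
    have h := sum_sq_col hV e
    rw [Finset.sum_eq_zero fun j hj => ?_] at h
    · linarith
    · rw [hout j e fun h => Finset.ne_of_mem_erase hj h.1, if_neg (Finset.ne_of_mem_erase hj)]
      simp
  rcases sq_eq_one_iff.1 hee with h | h
  · left
    funext i k
    by_cases hik : i = e ∧ k = e
    · obtain ⟨rfl, rfl⟩ := hik
      simp [h]
    · simp [hout i k hik, Matrix.one_apply]
  · right
    funext i k
    by_cases hik : i = e ∧ k = e
    · obtain ⟨rfl, rfl⟩ := hik
      simp [h, flip1]
    · rw [hout i k hik, flip1, of_symm_apply, diagonal_apply]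
      by_cases h1 : i = k
      · rw [if_pos h1, if_pos h1, if_neg fun h2 => hik ⟨h2, h1 ▸ h2⟩]
      · rw [if_neg h1, if_neg h1]

lemma gap_base_zero (hS : Sᶜ = ∅) :
    ∫ U, f U ^ 2 ∂ν - ∫ U, avg S f U ^ 2 ∂ν = 0 := by
  have hU : avg S f = f := funext fun U => by
    refine (integral_congr_ae ((stab_spec S).fix.mono fun V hV => ?_)).trans
      (integral_const (f U) |>.trans (by simp))
    have : V = of.symm 1 := funext fun i => funext fun k => by
      rw [(hV.2 i (by rw [← compl_compl S, hS]; simp) k).1]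
      simp [Matrix.one_apply]
    simp [this, mm]
  rw [hU, sub_self]

lemma gap_base_one (hν : StabLaw ∅ ν) (hf : Continuous f) {e : Fin N} (hS : Sᶜ = {e}) :
    ∫ U, f U ^ 2 ∂ν - ∫ U, avg S f U ^ 2 ∂ν ≤ (∫ U, (f U - f (mm (flip1 e) U)) ^ 2 ∂ν) / 2 := by
  have := hν.prob
  have h := avg_gap (S := S) hν hf
  have h2 : ∫ V, ∫ U, (f U - f (mm V U)) ^ 2 ∂ν ∂stab S ≤
      ∫ _V, ∫ U, (f U - f (mm (flip1 e) U)) ^ 2 ∂ν ∂stab S := by
    refine integral_mono_ae ((stab_spec S).integrable (hν.continuous_integral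
      (F := fun V U => (f U - f (mm V U)) ^ 2) (((hf.comp continuous_snd).sub
        (hf.comp continuous_mm)).pow 2))) (integrable_const _)
      ((stab_spec S).fix.mono fun V hV => ?_)
    rcases fix_compl_single (e := e) hS.le hV with rfl | rfl
    · simp only [show ∀ U : Arr2 N, mm (of.symm 1) U = U from fun U => by simp [mm], sub_self]
      exact (le_of_eq (by simp)).trans (integral_nonneg fun U => sq_nonneg _)
    · exact le_rfl
  rw [integral_const, probReal_univ, one_smul] at h2
  linarith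

lemma pair_sum (s : Finset (Fin N)) (d : Fin N → Fin N → ℝ) (hd : ∀ a, d a a = 0) :
    ∑ e ∈ s, ∑ a ∈ s.erase e, ∑ b ∈ s.erase e, d a b =
      ((s.card : ℝ) - 2) * ∑ a ∈ s, ∑ b ∈ s, d a b := by
  have h : ∀ e ∈ s, ∑ a ∈ s.erase e, ∑ b ∈ s.erase e, d a b =
      ∑ a ∈ s, ∑ b ∈ s, d a b - ∑ a ∈ s, d a e - ∑ b ∈ s, d e b := fun e he => by
    simp only [Finset.sum_erase_eq_sub he, Finset.sum_sub_distrib, hd]
    ring
  rw [Finset.sum_congr rfl h]
  simp only [Finset.sum_sub_distrib, Finset.sum_const, nsmul_eq_mul]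
  rw [Finset.sum_comm (f := fun e a => d a e)]
  ring

/-- The loss of square norm under averaging over a stabiliser. -/
theorem gap_le (hν : StabLaw ∅ ν) (hf : ContDiff ℝ 1 f) (m : ℕ) :
    ∀ S : Finset (Fin N), Sᶜ.card = m →
      ∫ U, f U ^ 2 ∂ν - ∫ U, avg S f U ^ 2 ∂ν ≤
        Real.pi ^ 2 / (2 * (m : ℝ)) * ∑ a ∈ Sᶜ, ∑ b ∈ Sᶜ, ∫ U, dl f a b U ^ 2 ∂ν +
          1 / (2 * (m : ℝ)) * ∑ e ∈ Sᶜ, ∫ U, (f U - f (mm (flip1 e) U)) ^ 2 ∂ν := by
  have := hν.prob
  induction m using Nat.strong_induction_on with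
  | _ m ih =>
  intro S hm
  rcases Nat.lt_or_ge m 2 with hm2 | hm2
  · interval_cases m
    · rw [Finset.card_eq_zero] at hm
      rw [gap_base_zero hm]
      simp [hm]
    · obtain ⟨e, he⟩ := Finset.card_eq_one.1 hm
      refine (gap_base_one hν hf.continuous he).trans (le_of_eq ?_)
      simp [he, dl_self]
      ring
  set d : Fin N → Fin N → ℝ := fun a b => ∫ U, dl f a b U ^ 2 ∂ν
  set F : Fin N → ℝ := fun e => ∫ U, (f U - f (mm (flip1 e) U)) ^ 2 ∂ν
  set L := ∫ U, f U ^ 2 ∂ν - ∫ U, avg S f U ^ 2 ∂ν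
  have hd : ∀ a, d a a = 0 := fun a => by simp [d, dl_self]
  have hm1 : ((m - 1 : ℕ) : ℝ) = (m : ℝ) - 1 := by
    rw [Nat.cast_sub (by omega)]
    simp
  have hpos : (0 : ℝ) < (m : ℝ) - 1 := by
    have : (2 : ℝ) ≤ m := by exact_mod_cast hm2
    linarith
  have hone : ∀ e ∈ Sᶜ, L ≤ Real.pi ^ 2 / (2 * ((m : ℝ) - 1)) *
      ((∑ a ∈ Sᶜ.erase e, ∑ b ∈ Sᶜ.erase e, d a b) + ∑ b ∈ Sᶜ.erase e, d e b) +
        1 / (2 * ((m : ℝ) - 1)) * ∑ k ∈ Sᶜ.erase e, F k := by
    intro e he
    have hc : (insert e S)ᶜ = Sᶜ.erase e := Finset.compl_insert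
    have hcard : (insert e S)ᶜ.card = m - 1 := by rw [hc, Finset.card_erase_of_mem he, hm]
    have h1 := ih (m - 1) (by omega) (insert e S) hcard
    have h2 := step_le hν hf (Finset.mem_compl.1 he) (Finset.card_pos.1 (by rw [hcard]; omega))
    rw [hcard, hm1] at h2
    rw [hm1] at h1
    rw [hc] at h1 h2
    simp only [L, d, F]
    linarith
  have hsum := Finset.sum_le_sum hone
  rw [Finset.sum_const, hm, nsmul_eq_mul] at hsum
  simp only [mul_add, Finset.sum_add_distrib, ← Finset.mul_sum] at hsum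
  rw [pair_sum _ d hd, hm] at hsum
  have e2 : ∑ e ∈ Sᶜ, ∑ b ∈ Sᶜ.erase e, d e b = ∑ a ∈ Sᶜ, ∑ b ∈ Sᶜ, d a b :=
    Finset.sum_congr rfl fun e _ => Finset.sum_erase _ (hd e)
  have e3 : ∑ e ∈ Sᶜ, ∑ k ∈ Sᶜ.erase e, F k = ((m : ℝ) - 1) * ∑ k ∈ Sᶜ, F k := by
    rw [Finset.sum_congr rfl fun e he => Finset.sum_erase_eq_sub he, Finset.sum_sub_distrib,
      Finset.sum_const, hm, nsmul_eq_mul]
    ring
  rw [e2, e3] at hsum
  have hmpos : (0 : ℝ) < m := by linarith
  refine le_of_mul_le_mul_left (hsum.trans (le_of_eq ?_)) hmpos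
  field_simp
  ring

/-- The Poincare inequality on the orthogonal group, both components. -/
theorem variance_le (hν : StabLaw ∅ ν) (hf : ContDiff ℝ 1 f) :
    ∫ U, (f U - ∫ V, f V ∂ν) ^ 2 ∂ν ≤
      Real.pi ^ 2 / (2 * (N : ℝ)) * ∑ a, ∑ b, ∫ U, dl f a b U ^ 2 ∂ν +
        1 / (2 * (N : ℝ)) * ∑ e, ∫ U, (f U - f (mm (flip1 e) U)) ^ 2 ∂ν := by
  have := hν.prob
  have hc := hf.continuous
  set M := ∫ V, f V ∂ν with hM
  have havg : ∀ᵐ U ∂ν, avg ∅ f U = M := hν.fix.mono fun U hU => by
    rw [avg, (stab_spec ∅).unique hν, hν.integral_mm_right hc hU]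
  have h := gap_le hν hf _ ∅ rfl
  simp only [Finset.compl_empty, Finset.card_univ, Fintype.card_fin] at h
  rw [integral_congr_ae (havg.mono fun U hU => congrArg (· ^ 2) hU), integral_const, probReal_univ,
    one_smul] at h
  have e : (fun U => (f U - M) ^ 2) = fun U => f U ^ 2 - (2 * M * f U - M ^ 2) := by funext U; ring
  have h3 : Integrable (fun U => 2 * M * f U - M ^ 2) ν :=
    ((hν.integrable hc).const_mul _).sub (integrable_const _)
  have h4 : Integrable (fun U => f U ^ 2) ν := hν.integrable (hc.pow 2)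
  rw [e, integral_sub h4 h3,
    integral_sub ((hν.integrable hc).const_mul _) (integrable_const _), integral_const_mul,
    integral_const, probReal_univ, one_smul, ← hM]
  linarith

end Vale.Agent.P166F.Orth
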