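import Vale.Agent.P166N.Spectrum.Transfer

/-!
Invariant laws on the subgroups of orthogonal matrices fixing given coordinates: existence,
uniqueness, invariance on both sides.
-/

namespace Vale.Agent.P166F.Orth

open MeasureTheory Matrix Filter
open Vale.Agent.P166N.Spectrum (OrthInvLaw)

/-- Square arrays. -/
abbrev Arr2 (N : ℕ) : Type := Fin N → Fin N → ℝ

variable {N : ℕ} {S T : Finset (Fin N)}

/-- The matrix product of two arrays. -/
noncomputable def mm (A B : Arr2 N) : Arr2 N := of.symm (of A * of B)

/-- The transpose of an array. -/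
def tr (A : Arr2 N) : Arr2 N := fun i j => A j i

lemma mm_apply (A B : Arr2 N) (i j : Fin N) : mm A B i j = ∑ k, A i k * B k j := by
  simp [mm, Matrix.mul_apply]

@[fun_prop]
lemma continuous_mm : Continuous fun p : Arr2 N × Arr2 N => mm p.1 p.2 := by
  refine continuous_pi fun i => continuous_pi fun j => ?_
  simp only [mm_apply]
  fun_prop

@[fun_prop]
lemma continuous_mm_right (A : Arr2 N) : Continuous (mm A) :=
  continuous_mm.comp (continuous_const.prodMk continuous_id)

@[fun_prop]
lemma continuous_mm_left (B : Arr2 N) : Continuous fun A => mm A B :=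
  continuous_mm.comp (continuous_id.prodMk continuous_const)

lemma continuous_tr : Continuous (tr (N := N)) :=
  continuous_pi fun i => continuous_pi fun j => (continuous_apply i).comp (continuous_apply j)

lemma mm_assoc (A B C : Arr2 N) : mm (mm A B) C = mm A (mm B C) := by
  simp [mm, Matrix.mul_assoc]

lemma tr_tr (A : Arr2 N) : tr (tr A) = A := rfl

lemma tr_mm (A B : Arr2 N) : tr (mm A B) = mm (tr B) (tr A) := by
  funext i j
  simp only [tr, mm_apply]
  exact Finset.sum_congr rfl fun k _ => mul_comm _ _

/-- Orthogonal and fixing the coordinates of `S`. -/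
def Fix (S : Finset (Fin N)) (U : Arr2 N) : Prop :=
  (of U)ᵀ * of U = 1 ∧
    ∀ i ∈ S, ∀ j, U i j = (if i = j then 1 else 0) ∧ U j i = (if i = j then 1 else 0)

lemma Fix.mono {U : Arr2 N} (h : Fix T U) (hST : S ⊆ T) : Fix S U :=
  ⟨h.1, fun i hi => h.2 i (hST hi)⟩

lemma isClosed_fix (S : Finset (Fin N)) : IsClosed {U : Arr2 N | Fix S U} := by
  simp only [Fix, Set.ofPred_and, Set.ofPred_forall]
  refine IsClosed.inter (isClosed_eq ?_ continuous_const)
    (isClosed_iInter fun i => isClosed_iInter fun _ => isClosed_iInter fun j =>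
      IsClosed.inter (isClosed_eq (by fun_prop) continuous_const)
        (isClosed_eq (by fun_prop) continuous_const))
  exact (Continuous.matrix_transpose continuous_id).matrix_mul continuous_id

lemma Fix.tr {U : Arr2 N} (h : Fix S U) : Fix S (tr U) := by
  refine ⟨?_, fun i hi j => ⟨(h.2 i hi j).2, (h.2 i hi j).1⟩⟩
  show ((of U)ᵀ)ᵀ * (of U)ᵀ = 1
  rw [transpose_transpose]
  exact mul_eq_one_comm.1 h.1

lemma Fix.mul {U V : Arr2 N} (hU : Fix S U) (hV : Fix S V) : Fix S (mm U V) := by
  constructor
  · simp only [mm, Equiv.apply_symm_apply, transpose_mul]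
    rw [Matrix.mul_assoc, ← Matrix.mul_assoc (of U)ᵀ, hU.1, Matrix.one_mul, hV.1]
  · intro i hi j
    simp only [mm_apply]
    refine ⟨?_, ?_⟩
    · simp only [(hU.2 i hi _).1, ite_mul, one_mul, zero_mul, Finset.sum_ite_eq, Finset.mem_univ,
        if_true, (hV.2 i hi j).1]
    · simp only [(hV.2 i hi _).2, mul_ite, mul_one, mul_zero, Finset.sum_ite_eq, Finset.mem_univ,
        if_true, (hU.2 i hi j).2]

lemma Fix.abs_le {U : Arr2 N} (h : Fix S U) (i j : Fin N) : |U i j| ≤ 1 := by
  have e := congrFun₂ h.1 j j
  rw [Matrix.mul_apply, Matrix.one_apply_eq] at e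
  have h1 : U i j * U i j ≤ 1 := e ▸ Finset.single_le_sum (f := fun k => U k j * U k j)
    (fun k _ => mul_self_nonneg _) (Finset.mem_univ i)
  exact _root_.abs_le.2 ⟨by nlinarith, by nlinarith⟩

/-- The arrays with entries in the unit interval. -/
def cube (N : ℕ) : Set (Arr2 N) :=
  Set.pi Set.univ fun _ => Set.pi Set.univ fun _ => Set.Icc (-1) 1

lemma isCompact_cube : IsCompact (cube N) :=
  isCompact_univ_pi fun _ => isCompact_univ_pi fun _ => isCompact_Icc

lemma Fix.mem_cube {U : Arr2 N} (h : Fix S U) : U ∈ cube N :=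
  fun i _ j _ => _root_.abs_le.1 (h.abs_le i j)

/-- A law on the arrays fixing `S`, invariant under left multiplication by such arrays. -/
structure StabLaw (S : Finset (Fin N)) (ν : Measure (Arr2 N)) : Prop where
  prob : IsProbabilityMeasure ν
  fix : ∀ᵐ U ∂ν, Fix S U
  invariant : ∀ O, Fix S O → ν.map (mm O) = ν

variable {ν ν' : Measure (Arr2 N)}

lemma OrthInvLaw.stabLaw (h : OrthInvLaw N ν) : StabLaw ∅ ν where
  prob := h.prob
  fix := h.orth.mono fun U hU => ⟨hU, fun i hi => absurd hi (Finset.notMem_empty i)⟩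
  invariant O hO := h.invariant (of O) hO.1

theorem StabLaw.exists (S : Finset (Fin N)) : ∃ ν, StabLaw S ν := by
  let G : Subgroup (Matrix.orthogonalGroup (Fin N) ℝ) :=
    { carrier := {u | Fix S fun i j => (u : Matrix (Fin N) (Fin N) ℝ) i j}
      mul_mem' := fun {u v} hu hv => hu.mul hv
      one_mem' := ⟨(mem_orthogonalGroup_iff' (Fin N) ℝ).1 (one_mem _),
        fun i _ j => by simp [Matrix.one_apply, eq_comm]⟩
      inv_mem' := fun {u} hu => hu.tr }
  let F : G → Arr2 N := fun u i j => ((u : Matrix.orthogonalGroup (Fin N) ℝ) :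
    Matrix (Fin N) (Fin N) ℝ) i j
  have hind : Topology.IsInducing F := Topology.IsInducing.subtypeVal.comp Topology.IsInducing.subtypeVal
  have hrange : Set.range F = {U | Fix S U} := by
    ext U
    refine ⟨?_, fun hU => ⟨⟨⟨of U, (mem_orthogonalGroup_iff' (Fin N) ℝ).2 hU.1⟩, hU⟩, rfl⟩⟩
    rintro ⟨u, rfl⟩
    exact u.2
  have : CompactSpace G := ⟨hind.isCompact_iff.2 (by
    rw [Set.image_univ, hrange]
    exact isCompact_cube.of_isClosed_subset (isClosed_fix S) fun U hU => hU.mem_cube)⟩
  let _ : MeasurableSpace G := borel G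
  have : BorelSpace G := ⟨rfl⟩
  let γ : Measure G := Measure.haarMeasure (⊤ : TopologicalSpace.PositiveCompacts G)
  have : γ.IsMulLeftInvariant :=
    inferInstanceAs (Measure.haarMeasure (⊤ : TopologicalSpace.PositiveCompacts G)).IsMulLeftInvariant
  have hγ : IsProbabilityMeasure γ := ⟨by
    have h := Measure.haarMeasure_self (G := G) (K₀ := ⊤)
    simpa [γ] using h⟩
  have hF : Continuous F := hind.continuous
  refine ⟨γ.map F, Measure.isProbabilityMeasure_map hF.measurable.aemeasurable, ?_, fun O hO => ?_⟩
  · exact (ae_map_iff hF.measurable.aemeasurable (isClosed_fix S).measurableSet).2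
      (Eventually.of_forall fun u => u.2)
  · let o : G := ⟨⟨of O, (mem_orthogonalGroup_iff' (Fin N) ℝ).2 hO.1⟩, hO⟩
    rw [Measure.map_map (continuous_mm_right O).measurable hF.measurable,
      show mm O ∘ F = F ∘ fun u => o * u from rfl,
      ← Measure.map_map hF.measurable (measurable_const_mul o), map_mul_left_eq_self]

/-- Any invariant law is the transpose of any other. -/
theorem StabLaw.eq_map_tr (h : StabLaw S ν) (h' : StabLaw S ν') : ν = ν'.map tr := by
  have := h.prob
  have := h'.prob
  have ht := continuous_tr (N := N) |>.measurable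
  have hmt : IsProbabilityMeasure (ν'.map tr) := Measure.isProbabilityMeasure_map ht.aemeasurable
  refine Measure.ext fun s hs => ?_
  have hpre : MeasurableSet ((fun p : Arr2 N × Arr2 N => mm p.1 p.2) ⁻¹' s) :=
    continuous_mm.measurable hs
  have e1 : (ν'.map tr).prod ν ((fun p : Arr2 N × Arr2 N => mm p.1 p.2) ⁻¹' s) = ν s := by
    rw [Measure.prod_apply hpre]
    have : ∀ᵐ W ∂ν'.map tr, ν (Prod.mk W ⁻¹' ((fun p : Arr2 N × Arr2 N => mm p.1 p.2) ⁻¹' s)) = ν s := by
      refine (ae_map_iff ht.aemeasurable (measurableSet_eq_fun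
        (measurable_measure_prodMk_left hpre) measurable_const)).2 (h'.fix.mono fun W hW => ?_)
      conv_rhs => rw [← h.invariant _ hW.tr, Measure.map_apply (continuous_mm_right _).measurable hs]
      rfl
    rw [lintegral_congr_ae this, lintegral_const, measure_univ, mul_one]
  have e2 : (ν'.map tr).prod ν ((fun p : Arr2 N × Arr2 N => mm p.1 p.2) ⁻¹' s) = ν'.map tr s := by
    rw [Measure.prod_apply_symm hpre]
    have : ∀ᵐ U ∂ν, (ν'.map tr) ((fun W => (W, U)) ⁻¹' ((fun p : Arr2 N × Arr2 N => mm p.1 p.2) ⁻¹' s))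
        = ν'.map tr s := h.fix.mono fun U hU => by
      have hm : Measurable fun W : Arr2 N => mm W U := (continuous_mm_left U).measurable
      change (ν'.map tr) ((fun W => mm W U) ⁻¹' s) = _
      rw [Measure.map_apply ht (hm hs), ← Set.preimage_comp]
      conv_rhs => rw [Measure.map_apply ht hs, ← h'.invariant _ hU.tr,
        Measure.map_apply (continuous_mm_right _).measurable (ht hs), ← Set.preimage_comp]
      refine congrArg _ (Set.ext fun W => ?_)
      simp [Function.comp, tr_mm, tr_tr]
    rw [lintegral_congr_ae this, lintegral_const, measure_univ, mul_one]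
  rw [← e1, e2]

/-- The invariant law is unique. -/
theorem StabLaw.unique (h : StabLaw S ν) (h' : StabLaw S ν') : ν = ν' :=
  (h.eq_map_tr h).trans (h'.eq_map_tr h).symm

/-- The invariant law is invariant under right multiplication. -/
theorem StabLaw.right_invariant (h : StabLaw S ν) {O : Arr2 N} (hO : Fix S O) :
    ν.map (fun U => mm U O) = ν := by
  have ht := continuous_tr (N := N) |>.measurable
  have e := h.eq_map_tr h
  conv_lhs => rw [e]
  conv_rhs => rw [e, ← h.invariant _ hO.tr]
  rw [Measure.map_map (continuous_mm_left O).measurable ht,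
    Measure.map_map ht (continuous_mm_right _).measurable]
  congr 1
  funext U
  simp [Function.comp, tr_mm, tr_tr]

/-- Continuous functions are integrable. -/
lemma StabLaw.integrable (h : StabLaw S ν) {F : Arr2 N → ℝ} (hF : Continuous F) : Integrable F ν := by
  have := h.prob
  obtain ⟨C, hC⟩ := isCompact_cube.exists_bound_of_continuousOn (f := F) hF.continuousOn
  exact Integrable.of_bound hF.aestronglyMeasurable C (h.fix.mono fun U hU => hC U hU.mem_cube)

/-- Left translations preserve integrals. -/
lemma StabLaw.integral_mm (h : StabLaw S ν) {F : Arr2 N → ℝ} (hF : Continuous F) {O : Arr2 N}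
    (hO : Fix S O) : ∫ U, F (mm O U) ∂ν = ∫ U, F U ∂ν := by
  conv_rhs => rw [← h.invariant O hO]
  rw [integral_map (continuous_mm_right O).measurable.aemeasurable hF.aestronglyMeasurable]

/-- Right translations preserve integrals. -/
lemma StabLaw.integral_mm_right (h : StabLaw S ν) {F : Arr2 N → ℝ} (hF : Continuous F) {O : Arr2 N}
    (hO : Fix S O) : ∫ U, F (mm U O) ∂ν = ∫ U, F U ∂ν := by
  conv_rhs => rw [← h.right_invariant hO]
  rw [integral_map (continuous_mm_left O).measurable.aemeasurable hF.aestronglyMeasurable]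

/-- Parametric integrals of continuous functions are continuous. -/
lemma StabLaw.continuous_integral (h : StabLaw S ν) {X : Type} [TopologicalSpace X]
    [FirstCountableTopology X] [LocallyCompactSpace X] {F : X → Arr2 N → ℝ}
    (hF : Continuous (Function.uncurry F)) : Continuous fun x => ∫ U, F x U ∂ν := by
  have := h.prob
  have e : ν.restrict (cube N) = ν :=
    Measure.restrict_eq_self_of_ae_mem (h.fix.mono fun U hU => hU.mem_cube)
  rw [← e]
  exact continuous_parametric_integral_of_continuous hF isCompact_cube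

end Vale.Agent.P166F.Orth
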